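import Mathlib.Geometry.Manifold.ChartedSpace
import Mathlib.Analysis.InnerProductSpace.PiL2

/-! Surfaces of finite genus. -/

open Topology

namespace Vale.Agent.P218VG

/-- `S` has finite genus: it is homeomorphic to an open subset of a closed surface, that is, of a
compact two-dimensional topological manifold without boundary. -/
def FiniteGenus (S : Set (EuclideanSpace ℝ (Fin 3))) : Prop :=
  ∃ (N : Type) (_ : TopologicalSpace N) (_ : ChartedSpace (EuclideanSpace ℝ (Fin 2)) N),
    T2Space N ∧ CompactSpace N ∧ ∃ e : S → N, IsOpenEmbedding e

end Vale.Agent.P218VG
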