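import Vale.Agent.P218VG.Props
import Mathlib.Topology.Homotopy.Lifting
import Mathlib.Analysis.SpecialFunctions.Complex.Circle
import Mathlib.Analysis.Normed.Module.Ball.Homeomorph
import Mathlib.Analysis.Convex.Contractible

/-! Open subsets of a closed surface have uniformly bounded first cohomology with compact
supports. -/

open Set Filter Topology Metric

namespace Vale.Agent.P218VG

open Vale.Agent.P218UA

theorem ev_const {X : Type*} [TopologicalSpace X] {d : X → ℝ} {x : X} (hd : ContinuousAt d x)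
    (h : ∀ᶠ y in 𝓝 x, Circle.exp (d y) = 1) : ∀ᶠ y in 𝓝 x, d y = d x := by
  have h1 : ∀ᶠ y in 𝓝 x, dist (d y) (d x) < 2 * Real.pi :=
    hd.eventually (ball_mem_nhds _ (by positivity))
  have hx := h.self_of_nhds
  filter_upwards [h, h1] with y hy hy1
  obtain ⟨m, hm⟩ := Circle.exp_eq_exp.1 (hy.trans hx.symm)
  rw [Real.dist_eq, hm, add_sub_cancel_left, abs_mul, abs_of_pos (by positivity : 0 < 2 * Real.pi)]
    at hy1
  have h2 : |(m : ℝ)| < 1 := by
    have := Real.pi_pos
    nlinarith [abs_nonneg (m : ℝ)]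
  have h3 : m = 0 := by
    have : |m| < 1 := by exact_mod_cast h2
    exact Int.abs_lt_one_iff.1 this
  simp [hm, h3]

theorem const_onB {X : Type*} [TopologicalSpace X] {d : X → ℝ} {O V : Set X} (hO : IsOpen O)
    (hd : ContinuousOn d O) (h : ∀ y ∈ O, Circle.exp (d y) = 1) (hV : IsPreconnected V)
    (hVO : V ⊆ O) {x y : X} (hx : x ∈ V) (hy : y ∈ V) : d x = d y := by
  have := isPreconnected_iff_preconnectedSpace.1 hV
  have hl : IsLocallyConstant (fun z : V => d z) := by
    rw [IsLocallyConstant.iff_eventually_eq]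
    intro z
    have hz := hO.mem_nhds (hVO z.2)
    have := ev_const (hd.continuousAt hz) (by filter_upwards [hz] with y hy using h y hy)
    exact continuous_subtype_val.continuousAt.eventually this
  exact hl.apply_eq_of_preconnectedSpace ⟨x, hx⟩ ⟨y, hy⟩

theorem exists_lift_nhds {N : Type*} [TopologicalSpace N]
    [ChartedSpace (EuclideanSpace ℝ (Fin 2)) N] (n : N) :
    ∃ U : Set N, IsOpen U ∧ n ∈ U ∧ ∀ v : N → Circle, Continuous v →
      ∃ θ : N → ℝ, ContinuousOn θ U ∧ ∀ y ∈ U, Circle.exp (θ y) = v y := by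
  set c := chartAt (EuclideanSpace ℝ (Fin 2)) n
  obtain ⟨r, hr, hb⟩ := Metric.isOpen_iff.1 c.open_target _ (c.map_source (mem_chart_source _ n))
  set b : OpenPartialHomeomorph (EuclideanSpace ℝ (Fin 2)) (EuclideanSpace ℝ (Fin 2)) :=
    OpenPartialHomeomorph.univBall (c n) r
  have hbt : b.target = ball (c n) r := OpenPartialHomeomorph.univBall_target _ hr
  have hbs : b.source = univ := OpenPartialHomeomorph.univBall_source _ _
  refine ⟨c.source ∩ c ⁻¹' ball (c n) r, c.isOpen_inter_preimage isOpen_ball,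
    ⟨mem_chart_source _ n, mem_ball_self hr⟩, fun v hv => ?_⟩
  have hbm : ∀ z, b z ∈ ball (c n) r := fun z => hbt ▸ b.map_source (by simp [hbs])
  have hbc : Continuous b := by
    rw [← continuousOn_univ, ← hbs]; exact b.continuousOn
  have hf : Continuous fun z => v (c.symm (b z)) :=
    hv.comp (c.continuousOn_symm.comp_continuous hbc fun z => hb (hbm z))
  obtain ⟨e₀, he₀⟩ := Circle.exp_surjective (v (c.symm (b 0)))
  obtain ⟨F, ⟨-, hF⟩, -⟩ :=
    Circle.isCoveringMap_exp.existsUnique_continuousMap_lifts ⟨_, hf⟩ 0 e₀ he₀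
  refine ⟨fun y => F (b.symm (c y)), ?_, fun y hy => ?_⟩
  · refine F.continuous.comp_continuousOn (b.continuousOn_symm.comp
      (c.continuousOn.mono inter_subset_left) fun y hy => ?_)
    rw [hbt]; exact hy.2
  · have := congr_fun hF (b.symm (c y))
    simp only [Function.comp_apply, ContinuousMap.coe_mk] at this
    rw [this, b.right_inv (by rw [hbt]; exact hy.2), c.left_inv hy.1]

theorem continuous_extend {X N : Type*} [TopologicalSpace X] [TopologicalSpace N] [T2Space N]
    {e : X → N} (he : IsOpenEmbedding e) {u : X → Circle} (hu : Continuous u)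
    (hK : ∃ K, IsCompact K ∧ ∀ x, x ∉ K → u x = 1) :
    Continuous (Function.extend e u 1) := by
  obtain ⟨K, hK, h1⟩ := hK
  rw [continuous_iff_continuousAt]
  intro n
  by_cases hn : n ∈ range e
  · obtain ⟨x, rfl⟩ := hn
    rw [← he.continuousAt_iff, Function.extend_comp he.injective]
    exact hu.continuousAt
  · have hc : IsOpen (e '' K)ᶜ := (hK.image he.continuous).isClosed.isOpen_compl
    have : (Function.extend e u 1) =ᶠ[𝓝 n] fun _ => 1 := by
      filter_upwards [hc.mem_nhds fun h => hn (image_subset_range _ _ h)] with y hy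
      by_cases hy' : ∃ x, e x = y
      · obtain ⟨x, rfl⟩ := hy'
        rw [he.injective.extend_apply]
        exact h1 x fun hx => hy (mem_image_of_mem _ hx)
      · rw [Function.extend_apply' _ _ _ hy']; rfl
    exact continuousAt_const.congr this.symm

theorem betti (N : Type*) [TopologicalSpace N] [ChartedSpace (EuclideanSpace ℝ (Fin 2)) N]
    [T2Space N] [CompactSpace N] : BettiStmt N := by
  classical
  have := ChartedSpace.locallyConnectedSpace (EuclideanSpace ℝ (Fin 2)) N
  choose U hUo hUn hU using exists_lift_nhds (N := N)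
  have hK : ∀ n : N, ∃ K, IsCompact K ∧ n ∈ interior K ∧ K ⊆ U n := fun n =>
    exists_compact_subset (hUo n) (hUn n)
  choose K hKc hKn hKU using hK
  obtain ⟨J, hJ⟩ := isCompact_univ.elim_finite_subcover (fun n => interior (K n))
    (fun _ => isOpen_interior) fun n _ => mem_iUnion.2 ⟨n, hKn n⟩
  have hZ : ∀ j l : N, ∃ Z : Finset N, ∀ y ∈ K j ∩ K l, ∃ z ∈ Z,
      y ∈ connectedComponentIn (U j ∩ U l) z := by
    intro j l
    obtain ⟨Z, hZ⟩ := ((hKc j).inter_right (hKc l).isClosed).elim_finite_subcover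
      (fun z => connectedComponentIn (U j ∩ U l) z)
      (fun _ => ((hUo j).inter (hUo l)).connectedComponentIn)
      fun y hy => mem_iUnion.2 ⟨y, mem_connectedComponentIn ⟨hKU j hy.1, hKU l hy.2⟩⟩
    refine ⟨Z, fun y hy => ?_⟩
    simpa using hZ hy
  choose Z hZ using hZ
  let T := Σ p : J × J, Z p.1 p.2
  refine ⟨Fintype.card T, fun S e he ι _ u hu hs => ?_⟩
  have hv : ∀ i, Continuous (Function.extend e (u i) 1) := fun i =>
    continuous_extend he (hu i) (hs i)
  choose θ hθc hθe using fun n i => hU n _ (hv i)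
  let Λ : (ι → ℝ) →ₗ[ℝ] (T → ℝ) :=
    { toFun := fun k t => ∑ i, k i * (θ t.1.1 i t.2 - θ t.1.2 i t.2)
      map_add' := fun k k' => by
        ext t; simp [add_mul, Finset.sum_add_distrib]
      map_smul' := fun a k => by
        ext t; simp [Finset.mul_sum, mul_assoc] }
  refine ⟨LinearMap.ker Λ, ?_, fun k hk => ?_⟩
  · have h1 := LinearMap.finrank_range_add_finrank_ker Λ
    have h2 : Module.finrank ℝ (LinearMap.range Λ) ≤ Fintype.card T := by
      simpa using Submodule.finrank_le (LinearMap.range Λ)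
    simp only [Module.finrank_fintype_fun_eq_card] at h1
    omega
  have hcomp : ∀ j l : J, ∀ y ∈ K j ∩ K l, ∑ i, k i * θ j i y = ∑ i, k i * θ l i y := by
    intro j l y hy
    obtain ⟨z, hz, hyz⟩ := hZ j l y hy
    have h0 := congr_fun (LinearMap.mem_ker.1 hk) ⟨(j, l), ⟨z, hz⟩⟩
    change ∑ i, k i * (θ j i z - θ l i z) = 0 at h0
    have hzO : z ∈ U j ∩ U l := by
      by_contra hc
      rw [connectedComponentIn_eq_empty hc] at hyz
      exact hyz
    have : ∀ i, θ j i y - θ l i y = θ j i z - θ l i z := fun i =>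
      const_onB (d := fun y => θ j i y - θ l i y) ((hUo j).inter (hUo l))
        (((hθc j i).mono inter_subset_left).sub ((hθc l i).mono inter_subset_right))
        (fun y hy => by rw [Circle.exp_sub, hθe j i y hy.1, hθe l i y hy.2, div_self'])
        isPreconnected_connectedComponentIn (connectedComponentIn_subset _ _) hyz
        (mem_connectedComponentIn hzO)
    rw [← sub_eq_zero, ← Finset.sum_sub_distrib, ← h0]
    exact Finset.sum_congr rfl fun i _ => by rw [← mul_sub, this i]
  have hj : ∀ y : N, ∃ j : J, y ∈ interior (K j) := fun y => by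
    obtain ⟨j, hj, hy⟩ := mem_iUnion₂.1 (hJ (mem_univ y))
    exact ⟨⟨j, hj⟩, hy⟩
  choose j hj using hj
  refine ⟨fun y => ∑ i, k i * θ (j (e y)) i (e y), fun x φ hφ hφe => ?_⟩
  have hn : ∀ᶠ y in 𝓝 x, e y ∈ interior (K (j (e x))) :=
    he.continuous.continuousAt.eventually (isOpen_interior.mem_nhds (hj _))
  have hxU : U (j (e x)) ∈ 𝓝 (e x) := (hUo _).mem_nhds (hKU _ (interior_subset (hj _)))
  have hi : ∀ i, ∀ᶠ y in 𝓝 x, θ (j (e x)) i (e y) - φ i y = θ (j (e x)) i (e x) - φ i x := by
    intro i
    refine ev_const (d := fun y => θ (j (e x)) i (e y) - φ i y)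
      ((((hθc _ i).continuousAt hxU).comp he.continuous.continuousAt).sub (hφ i)) ?_
    filter_upwards [hn, hφe i] with y hy hy'
    rw [Circle.exp_sub, hθe _ i _ (hKU _ (interior_subset hy)), hy', he.injective.extend_apply,
      div_self']
  filter_upwards [hn, eventually_all.2 hi] with y hy hy'
  rw [hcomp _ (j (e x)) _ ⟨interior_subset (hj _), interior_subset hy⟩, ← Finset.sum_sub_distrib,
    ← Finset.sum_sub_distrib]
  exact Finset.sum_congr rfl fun i _ => by rw [← mul_sub, ← mul_sub, hy' i]

end Vale.Agent.P218VG
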