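import Vale.Agent.P218VG.Defs
import Vale.Agent.P218UE.Props
import Vale.Agent.P218UY.Main

/-! The local Gauss-Bonnet estimate for properly embedded surfaces of finite genus: interfaces
(definitions of propositions only). -/

open MeasureTheory Set Filter Topology Metric
open scoped ENNReal NNReal RealInnerProductSpace ContDiff

namespace Vale.Agent.P218VG

open Vale.Agent.P218UA Vale.Agent.P218UE
open Vale.Agent.P218UY (rs)

/-- the first cohomology with compact supports has rank at most `B` in the usual cohomology: for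
every finite family of circle valued functions with compact support, the real combinations of their
arguments which are single valued have codimension at most `B` -/
def H1le (X : Type*) [TopologicalSpace X] (B : ℕ) : Prop :=
  ∀ (ι : Type) [Fintype ι] (u : ι → X → Circle), (∀ i, Continuous (u i)) →
    (∀ i, ∃ K, IsCompact K ∧ ∀ x, x ∉ K → u i x = 1) →
    ∃ P : Submodule ℝ (ι → ℝ), Fintype.card ι ≤ Module.finrank ℝ P + B ∧ ∀ k ∈ P, ∃ L : X → ℝ,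
      ∀ (x : X) (θ : ι → X → ℝ), (∀ i, ContinuousAt (θ i) x) →
        (∀ i, ∀ᶠ y in 𝓝 x, Circle.exp (θ i y) = u i y) →
        ∀ᶠ y in 𝓝 x, L y - ∑ i, k i * θ i y = L x - ∑ i, k i * θ i x

/-- [G1] -/
def BettiStmt (N : Type*) [TopologicalSpace N] : Prop :=
  ∃ B : ℕ, ∀ (S : Set E3) (e : S → N), IsOpenEmbedding e → H1le S B

/-- `f` is a Morse function on the compact part `{f ≤ T}` of `{w = 0}` -/
structure IsMorseB (w f : E3 → ℝ) (crit : Finset E3) (T : ℝ) : Prop where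
  smooth : ContDiff ℝ ∞ f
  cpt : IsCompact {x | w x = 0 ∧ f x ≤ T}
  mem : ∀ x, x ∈ crit ↔ w x = 0 ∧ f x < T ∧ gM w f x = 0
  nondeg : ∀ p ∈ crit, detM w f p ≠ 0
  inj : InjOn f (crit : Set E3)

/-- [L0B] -/
def L0B : Prop :=
  ∀ w, IsSurf w → ∀ (z : E3) (r ε : ℝ), 0 < r → 0 < ε →
    ∃ (f : E3 → ℝ) (crit : Finset E3), IsMorseB w f crit (2 * r ^ 2) ∧
      (∀ x, w x = 0 → f x ≤ 2 * r ^ 2 → ‖x - z‖ ≤ 3 * r) ∧ ∀ x, w x = 0 → ‖x - z‖ ≤ 3 * r →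
        |f x - ‖x - z‖ ^ 2 / 2| ≤ ε ∧ ‖gradient f x‖ ≤ ‖x - z‖ + ε ∧ ‖hs f x‖ ≤ 2

/-- [L1B] -/
def L1B : Prop :=
  ∃ C : ℝ, 0 ≤ C ∧ ∀ w, IsSurf w → ∀ f crit T, IsMorseB w f crit T →
    ∀ φ : ℝ → ℝ, ContDiff ℝ 1 φ → ∀ T' < T, (∀ s, T' ≤ s → φ s = 0) →
      |∫ x, φ (f x) * KK w x ∂(ar w) - 2 * Real.pi * ∑ p ∈ crit, φ (f p) * ind w f p|
        ≤ C * ∫ x, |deriv φ (f x)| * GG w f x ∂(ar w)

/-- [L3B] -/
def L3B : Prop :=
  ∃ c : ℝ, 0 < c ∧ ∀ w, IsSurf w → ∀ f : E3 → ℝ, ContDiff ℝ ∞ f → ∀ t₁ t₂ : ℝ, t₁ < t₂ →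
    IsCompact {x | w x = 0 ∧ f x ≤ t₂} → (∀ x ∈ strip w f t₁ t₂, gM w f x ≠ 0) →
    ∀ V, Piece w f t₁ t₂ V → ∀ θ : ℝ → ℝ, Continuous θ → (∀ t, 0 ≤ θ t) →
      c * ∫ t in t₁..t₂, θ t ≤ ∫ x in V, θ (f x) * GG w f x ∂(ar w)

/-- [PANTS] at a saddle of an orientable surface, one of the two thin half strips is separated -/
def Pants : Prop :=
  ∀ w f crit T, IsSurf w → IsMorseB w f crit T → ∀ p : {y | w y = 0}, p.1 ∈ crit →
    detM w f p < 0 → ∃ η > 0, ∀ η' ∈ Ioc (0 : ℝ) η, ∃ H : Set ℝ,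
      (H = Ioo (f p) (f p + η') ∨ H = Ioo (f p - η') (f p)) ∧
      ∃ x₁ ∈ connectedComponentIn (rs w f ⁻¹' Ioo (f p - η') (f p + η')) p,
      ∃ x₂ ∈ connectedComponentIn (rs w f ⁻¹' Ioo (f p - η') (f p + η')) p,
        f x₁ ∈ H ∧ f x₂ ∈ H ∧ x₂ ∉ connectedComponentIn (rs w f ⁻¹' H) x₁

/-- [L2G] the Euler characteristic of a sublevel set is bounded below -/
def L2G : Prop :=
  ∀ (B : ℕ) w, IsSurf w → H1le {x | w x = 0} B → ∀ f crit T, IsMorseB w f crit T →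
    ∀ t₁ t₂ : ℝ, t₁ < t₂ → t₂ ≤ T → (∀ p ∈ crit, f p ∉ Ioo t₁ t₂) →
    ∃ (n : ℕ) (V : Fin n → Set E3), Pairwise (Function.onFun Disjoint V) ∧
      (∀ i, Piece w f t₁ t₂ (V i)) ∧
      -∑ p ∈ crit.filter (fun p => f p ≤ t₁), ind w f p ≤ 2 * B + 2 * n

/-- [LGBG] -/
def LGBG : Prop :=
  ∀ (B : ℕ) (A : ℝ), ∃ C : ℝ, ∀ w, IsSurf w → AR (ar w) A → H1le {x | w x = 0} B → LGB w C

/-- [SHRAR] properly embedded self-shrinkers have bounded area ratios -/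
def ShrAR : Prop := ∀ W, IsShr W → ∃ A, 1 ≤ A ∧ AR (ar W) A

end Vale.Agent.P218VG
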