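import Vale.Agent.P218UV.Fin
import Vale.Agent.P218VG.Props

/-! Assembly for closed embedded surfaces which need not be connected, with smooth convergence. -/

open MeasureTheory Set Filter Topology Metric
open scoped Manifold ContDiff RealInnerProductSpace ENNReal NNReal Pointwise

namespace Vale.Agent.P218VG

open Vale.Agent.P218 Vale.Agent.P218UA Vale.Agent.P218ST Vale.Agent.P218UV
open Vale.Agent.P218UZ hiding E2 E3
open Vale.Agent.P218GA (cH hausdorff_eq_smul HasCylConeEnds)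

lemma jet_scale (f : E2 → ℝ) (c a : ℝ) (k : ℕ) : iteratedFDeriv ℝ k (fun x => c * f (a • x))
    = fun x => (c * a ^ k) • iteratedFDeriv ℝ k f (a • x) := by
  induction k with
  | zero => ext; simp
  | succ k ih =>
    ext1 x
    have h := congrFun (fderiv_const_smul_field (𝕜 := ℝ) (c * a ^ k)
      (f := fun x => iteratedFDeriv ℝ k f (a • x))) x
    rw [Pi.smul_apply, fderiv_comp_smul, smul_smul, Pi.smul_def] at h
    rw [iteratedFDeriv_succ_eq_comp_left, iteratedFDeriv_succ_eq_comp_left, ih,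
      Function.comp_apply, Function.comp_apply, h, map_smul, pow_succ, mul_assoc]

lemma conv_smul {M : ℕ → Set E3} {S : Set E3} (h : SmoothConv M S) {c : ℝ} (hc : 0 < c) :
    SmoothConv (fun i => c • M i) (c • S) := by
  have hn : ∀ {R : ℝ} {ξ : E2}, ‖ξ‖ < c * R → ‖c⁻¹ • ξ‖ < R := fun h => by
    rwa [norm_smul, norm_inv, Real.norm_of_nonneg hc.le, inv_mul_lt_iff₀ hc]
  have hb : ∀ R : ℝ, MapsTo (fun ξ : E2 => c⁻¹ • ξ) (ball 0 (c * R)) (ball 0 R) := fun R ξ h =>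
    mem_ball_zero_iff.2 (hn (mem_ball_zero_iff.1 h))
  have hg : ∀ {X Q p R k u}, IsGraph X Q (c⁻¹ • p) R k u →
      IsGraph (c • X) Q p (c * R) (c * k) fun ξ => c * u (c⁻¹ • ξ) := fun {X Q p R k u} h ξ hξ => by
    refine ⟨by rw [abs_mul, abs_of_pos hc]; exact mul_lt_mul_of_pos_left (h _ (hn hξ)).1 hc,
      fun s hs => ?_⟩
    have e : c⁻¹ • pt Q p ξ s = pt Q (c⁻¹ • p) (c⁻¹ • ξ) (c⁻¹ * s) := by
      rw [P218UG.pt_eq, P218UG.pt_eq, smul_add, ← map_smul]; rfl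
    rw [mem_smul_set_iff_inv_smul_mem₀ hc.ne', e, (h _ (hn hξ)).2 _ (by
      rwa [abs_mul, abs_inv, abs_of_pos hc, inv_mul_lt_iff₀ hc]), inv_mul_eq_iff_eq_mul₀ hc.ne']
  have hd : ∀ {R : ℝ} {u : E2 → ℝ}, ContDiffOn ℝ ∞ u (ball 0 R) →
      ContDiffOn ℝ ∞ (fun ξ => c * u (c⁻¹ • ξ)) (ball 0 (c * R)) := fun h =>
    contDiffOn_const.mul (h.comp (contDiff_const_smul _).contDiffOn (hb _))
  refine ⟨fun p hp => ?_, fun p hp => ?_⟩ <;> rw [mem_smul_set_iff_inv_smul_mem₀ hc.ne'] at hp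
  · obtain ⟨r, hr, h1⟩ := h.away _ hp
    refine ⟨c * r, mul_pos hc hr, h1.mono fun i hi => disjoint_left.2 fun x hx hx' =>
      disjoint_left.1 hi ?_ ((mem_smul_set_iff_inv_smul_mem₀ hc.ne' _ _).1 hx')⟩
    rwa [mem_ball, dist_smul₀, norm_inv, Real.norm_of_nonneg hc.le, inv_mul_lt_iff₀ hc]
  · obtain ⟨Q, R, k, u, v, h1, h2, h3, h4, h5, h6⟩ := h.near _ hp
    refine ⟨Q, c * R, c * k, _, fun i ξ => c * v i (c⁻¹ • ξ), mul_pos hc h1, mul_pos hc h2, hg h3,
      hd h4, h5.mono fun i hi => ⟨hg hi.1, hd hi.2⟩, fun n => ?_⟩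
    simp only [jet_scale]
    exact (uniformContinuous_const_smul (c * c⁻¹ ^ n)).comp_tendstoUniformlyOn
      (((h6 n).comp fun ξ : E2 => c⁻¹ • ξ).mono (hb R))

lemma conv_sub {M : ℕ → Set E3} {S S' : Set E3} (h : SmoothConv M S) (h' : SmoothConv M S') :
    S ⊆ S' := fun p hp => by
  by_contra hp'
  obtain ⟨x, h1, h2⟩ := P218UX.conv_seq h hp
  obtain ⟨r, hr, h3⟩ := h'.away p hp'
  obtain ⟨i, a1, a2, a3⟩ := ((h1.eventually (ball_mem_nhds p hr)).and (h2.and h3)).exists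
  exact disjoint_left.1 a3 a1 a2

/-- the conclusion for a flow given by a signed distance function -/
theorem flow2 (hmain : MainSmooth) {w : ℝ → E3 → ℝ} {T : ℝ} (hT0 : 0 < T)
    (hw : IsFlow w (Ioo (-T) 0))
    (hk : ∀ a b, -T < a → b < 0 → IsCompact {p : ℝ × E3 | p.1 ∈ Icc a b ∧ w p.1 p.2 = 0})
    (hc : ∀ A, ∃ C, ∀ t ∈ Ioo (-T) 0, AR (ar (w t)) A → LGB (w t) C) :
    ∃ W, IsShr W ∧ HasCylConeEnds {x | W x = 0} ∧ ∀ lam : ℕ → ℝ, Tendsto lam atTop atTop →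
      ∀ s < 0, WeakTendsto (fun i => ar (resc w (lam i)⁻¹ s)) (scal (ar W) √(-s)) ∧
        SmoothConv (fun i => {x | resc w (lam i)⁻¹ s x = 0}) (√(-s) • {x | W x = 0}) := by
  have hT := tanA
  obtain ⟨A, hA⟩ := monoA.ratio w _ hw (-T / 2) ⟨by linarith, by linarith⟩
    fun b hb => hk _ _ (by linarith) hb.2
  have eI : Ioo (-T) 0 ∩ Ioi (-T / 2) = Ioo (-T / 2) 0 := by
    ext t
    exact ⟨fun h => ⟨h.2, h.1.2⟩, fun h => ⟨⟨by linarith [h.1], h.2⟩, h.1⟩⟩
  rw [eI] at hA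
  have ha : -T / 2 < 0 := by linarith
  obtain ⟨C, hC⟩ := hc A
  have hG : IsGood w (Ioo (-T / 2) 0) A (max 1 C) := ⟨hA, le_max_left _ _, fun t ht z r hr =>
    (hC t ⟨by linarith [ht.1], ht.2⟩ (hA.ratio t ht) z r hr).trans (mul_le_mul_of_nonneg_right
      (le_max_right _ _) (add_nonneg zero_le_one (integral_nonneg fun _ => sq_nonneg _)))⟩
  obtain ⟨σ, ν₀, hσ, hZ⟩ := m1A w _ A _ ha hG
  replace hZ := densA w _ A _ ha hG σ ν₀ hσ hZ
  obtain ⟨W, hW, rfl, hL, hV⟩ := limA w _ A _ ha hG σ ν₀ hσ hZ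
  obtain ⟨D, hD⟩ := endsThm W A _ hW hG.one_le hG.one_le' (hT.ratio w _ A ha hA σ _ hσ) hL
  have hE := formatA W D hW hD
  have hS : (ar W).support = {x | W x = 0} :=
    have := P218US.smoothConv hT regPtA hdA ha hG hσ hZ
    (conv_sub this hV).antisymm (conv_sub hV this)
  refine ⟨W, hW, hE, ?_⟩
  have hb := brakkeA w _ A hA (-T / 4) 0 (by linarith) (fun t ht => ⟨by linarith [ht.1], ht.2⟩)
    fun b hb => hk _ _ (by linarith) hb
  set μ : ℝ → Measure E3 := fun t => if t < 0 - -T / 4 then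
    (μH[(2 : ℕ)] : Measure E3).restrict {x | w (-T / 4 + t) x = 0} else 0 with hμ
  have hr : ∀ lam s : ℝ, 0 < lam → s < 0 →
      rescaled 2 μ 0 (T / 4) lam s = cH 2 • ar (resc w lam⁻¹ s) := fun lam s hl hs => by
    have h1 : T / 4 + s / lam ^ 2 < 0 - -T / 4 := by
      have := div_neg_of_neg_of_pos hs (pow_pos hl 2)
      linarith
    have h2 : -T / 4 + (T / 4 + s / lam ^ 2) = lam⁻¹ ^ 2 * s := by field_simp; ring
    rw [rescaled, hμ]
    simp only [h1, if_true, h2]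
    rw [resc_meas, hT.ar_resc w _ s (inv_pos.2 hl), inv_inv]
    simp [ar]
  have htf : ∀ σ ν, TanSeq w σ ν →
      IsTangentFlow 2 μ 0 (T / 4) fun s => cH 2 • scal ν √(-s) := fun σ ν h =>
    ⟨fun s hs => locFin_scal h.locFin (Real.sqrt_pos.2 (neg_pos.2 hs)).ne' _,
      fun i => (σ i)⁻¹, tendsto_inv_nhdsGT_zero.comp
        (tendsto_nhdsWithin_iff.2 ⟨h.lim, Eventually.of_forall h.pos⟩), fun s hs => by
      simp only [fun i => hr _ s (inv_pos.2 (h.pos i)) hs, inv_inv]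
      exact weakTendsto_smul (hT.slow w _ A ha hA σ ν h _ s hs tendsto_const_nhds) _⟩
  have hfin : μ 0 univ < ⊤ := by
    have h1 : (0 : ℝ) < 0 - -T / 4 := by linarith
    have ht : -T / 4 + 0 ∈ Ioo (-T) 0 := ⟨by linarith, by linarith⟩
    have h2 := calcA.locFin _ (calcA.slice w _ hw _ ht)
    have h3 : IsCompact {x | w (-T / 4 + 0) x = 0} := by
      convert (hk _ _ ht.1 ht.2).image continuous_snd using 1
      ext x
      exact ⟨fun h => ⟨(_, x), ⟨⟨le_rfl, le_rfl⟩, h⟩, rfl⟩, fun ⟨p, hp, e⟩ => by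
        have := hp.2
        rwa [le_antisymm hp.1.2 hp.1.1, e] at this⟩
    have h4 := h3.measure_lt_top (μ := ar (w (-T / 4 + 0)))
    rw [ar, Measure.restrict_apply_self] at h4
    simp only [hμ, h1, if_true, Measure.restrict_apply_univ]
    rw [hausdorff_eq_smul, Measure.smul_apply]
    exact ENNReal.mul_lt_top ENNReal.coe_lt_top h4
  have hSW : (μH[(2 : ℕ)] : Measure E3).restrict {x | W x = 0} = cH 2 • ar W := by
    rw [hausdorff_eq_smul, Measure.restrict_smul, ar]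
  have hU := (hmain _ W (isSmoothShrinker hW) hE μ hb hfin 0 (T / 4) (by linarith)
    ⟨_, htf σ _ hσ, by rw [P218US.scal_one, hSW]⟩).2
  have key : ∀ τ : ℕ → ℝ, (∀ i, 0 < τ i) → Tendsto τ atTop (𝓝 0) → TanSeq w τ (ar W) := by
    refine fun τ h0 h1 => ⟨h0, h1, hσ.locFin, fun φ hφ hφc =>
      tendsto_of_subseq_tendsto fun ns hns => ?_⟩
    obtain ⟨ψ, ν, hψ, hν⟩ := hT.compact w _ A ha hA (τ ∘ ns) (fun i => h0 _) (h1.comp hns)
    have h1 := hU _ (htf _ ν hν)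
    rw [P218US.scal_one, hSW] at h1
    have h2 : ν = ar W := by
      have := congrArg (fun m : Measure E3 => (cH 2)⁻¹ • m) h1
      simpa [smul_smul, (Vale.Agent.P218GA.cH_pos 2).ne'] using this
    exact ⟨ψ, h2 ▸ hν.weak φ hφ hφc⟩
  intro lam hlam s hs
  have hq : 0 < √(-s) := Real.sqrt_pos.2 (neg_pos.2 hs)
  set τ : ℕ → ℝ := fun i => (max (lam i) 1)⁻¹
  have h0 : ∀ i, 0 < τ i := fun i => inv_pos.2 (lt_max_of_lt_right one_pos)
  have h1 : Tendsto τ atTop (𝓝 0) :=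
    tendsto_inv_atTop_zero.comp (tendsto_atTop_mono (fun i => le_max_left _ _) hlam)
  have h2 : ∀ᶠ i in atTop, τ i = (lam i)⁻¹ :=
    (hlam.eventually (eventually_ge_atTop 1)).mono fun i hi => congrArg _ (max_eq_left hi)
  refine ⟨fun φ hφ hφc => (hT.slow w _ A ha hA τ _ (key τ h0 h1) _ s hs tendsto_const_nhds φ hφ
    hφc).congr' (h2.mono fun i hi => by simp only [hi]), ?_⟩
  have h3 := conv_smul (P218US.smoothConv hT regPtA hdA ha hG (key (fun i => τ i * √(-s))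
    (fun i => mul_pos (h0 i) hq) (by simpa using h1.mul_const _)) hZ) hq
  refine P218UX.conv_congr (hS ▸ h3) (h2.mono fun i hi => ?_)
  ext x
  have h4 : (τ i * √(-s)) ^ 2 * -1 = τ i ^ 2 * s := by
    rw [mul_pow, Real.sq_sqrt (neg_pos.2 hs).le]; ring
  simp only [mem_smul_set_iff_inv_smul_mem₀ hq.ne', mem_ofPred_eq, resc, ← hi, h4, smul_smul,
    mul_inv_cancel_right₀ hq.ne', div_eq_zero_iff, (h0 i).ne', (mul_pos (h0 i) hq).ne']

variable {M : Type*} [TopologicalSpace M] [ChartedSpace E2 M] [IsManifold (𝓡 2) ∞ M]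
  [T2Space M] [CompactSpace M]

lemma exists_isFlow' {F : ℝ → M → E3} {T : ℝ} (hF : IsSmoothMCF F T) (hT : 0 < T)
    (h0 : Function.Injective (F 0)) :
    ∃ w, IsFlow w (Ioo 0 T) ∧ ∀ t ∈ Ioo 0 T, {x | w t x = 0} = range (F t) := by
  cases isEmpty_or_nonempty M
  · exact ⟨fun _ _ => 1, ⟨isOpen_Ioo, ordConnected_Ioo, contDiffOn_const, by simp, by simp⟩,
      fun t _ => by simp [range_eq_empty]⟩
  · exact hF.exists_isFlow hT h0

/-- **Uniqueness of tangent flows of smooth flows of closed embedded surfaces**, up to and including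
the first singular time, with smooth convergence -/
theorem final2 (hL : LGBG) (hB : BettiStmt M) (hmain : MainSmooth) (F : ℝ → M → E3) (a T : ℝ)
    (hF : IsSmoothMCF F T) (h0 : Function.Injective (F 0)) (μ : ℝ → Measure E3)
    (hμ : ∀ t ∈ Ico 0 T, μ (a + t) = (μH[2] : Measure E3).restrict (range (F t))) (x₀ : E3)
    (t₀ : ℝ) (ht₀ : t₀ ∈ Ioc 0 T) : TangentFlowUnique 2 μ x₀ (a + t₀) ∧
      ∃ (S : Set E3) (Φ : E3 → ℝ), IsSmoothShrinker S Φ ∧ HasCylConeEnds S ∧ ∀ s < 0,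
        (∀ φ : E3 → ℝ, Continuous φ → HasCompactSupport φ →
          Tendsto (fun lam : ℝ => ∫ x, φ x ∂(rescaled 2 μ x₀ (a + t₀) lam s)) atTop
            (𝓝 (∫ x in √(-s) • S, φ x ∂μH[2]))) ∧
        ∀ lam : ℕ → ℝ, Tendsto lam atTop atTop → SmoothConv
          (fun i => (fun x => lam i • (x - x₀)) '' range (F (t₀ + s / lam i ^ 2))) (√(-s) • S) := by
  have hT := tanA
  have hT0 := ht₀.1
  have hI : Ico 0 t₀ ⊆ Ico 0 T := Ico_subset_Ico_right ht₀.2
  replace hF : IsSmoothMCF F t₀ := ⟨hF.smooth.mono (prod_mono hI Subset.rfl),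
    fun t ht => hF.immersion t (hI ht), fun t ht => hF.flow t (Ioo_subset_Ioo_right ht₀.2 ht)⟩
  obtain ⟨w, hw, hz⟩ := exists_isFlow' hF hT0 h0
  have hm : ∀ t ∈ Ioo (-t₀) 0, t₀ + t ∈ Ioo 0 t₀ := fun t ht =>
    ⟨by linarith [ht.1], by linarith [ht.2]⟩
  obtain ⟨B, hB⟩ := hB
  obtain ⟨W, hW, hE, hconv⟩ := flow2 hmain hT0 (isFlow_translate hw x₀)
    (fun a b ha hb => by
      have h1 := (hF.isCompact_track hz (a := t₀ + a) (b := t₀ + b) (by linarith)
        (by linarith)).image (f := fun p : ℝ × E3 => (p.1 - t₀, p.2 - x₀)) (by fun_prop)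
      convert h1 using 1
      ext ⟨t, x⟩
      refine ⟨fun h => ⟨(t₀ + t, x₀ + x), ⟨⟨?_, ?_⟩, h.2⟩, by simp⟩, ?_⟩
      · linarith [h.1.1]
      · linarith [h.1.2]
      · rintro ⟨⟨s, y⟩, hp, e⟩
        obtain ⟨rfl, rfl⟩ := Prod.mk.inj e
        exact ⟨⟨by linarith [hp.1.1], by linarith [hp.1.2]⟩, by simpa using hp.2⟩)
    fun A => by
      obtain ⟨C, hC⟩ := hL B A
      refine ⟨C, fun t ht hA => hC _ (calcA.slice _ _ (isFlow_translate hw x₀) t ht) hA ?_⟩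
      have ht' := Ioo_subset_Ico_self (hm t ht)
      have h1 : ∀ x, w (t₀ + t) (x₀ + x) = 0 ↔ x₀ + x ∈ range (F (t₀ + t)) := fun x =>
        Set.ext_iff.1 (hz _ (hm t ht)) _
      let e : M ≃ {x | w (t₀ + t) (x₀ + x) = 0} := Equiv.ofBijective
        (fun p => ⟨F (t₀ + t) p - x₀, (h1 _).2 ⟨p, by simp⟩⟩)
        ⟨fun p q h => hF.injective h0 ht' (sub_left_injective (congrArg Subtype.val h)),
          fun x => ((h1 _).1 x.2).imp fun p hp => Subtype.ext (sub_eq_of_eq_add' hp)⟩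
      exact hB _ _ (Continuous.homeoOfEquivCompactToT2 (f := e)
        (((hF.cont_sec ht').sub continuous_const).subtype_mk _)).symm.isOpenEmbedding
  have e2 : (μH[2] : Measure E3) = μH[(2 : ℕ)] := by norm_num
  have hev : ∀ lam : ℕ → ℝ, Tendsto lam atTop atTop → ∀ s < 0, ∀ᶠ i in atTop, 0 < lam i ∧
      s / lam i ^ 2 ∈ Ioo (-t₀) 0 ∧ (lam i)⁻¹ ^ 2 * s = s / lam i ^ 2 := fun lam hlam s hs => by
    have h1 : Tendsto (fun i => s / lam i ^ 2) atTop (𝓝 0) :=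
      ((tendsto_pow_atTop two_ne_zero).comp hlam).const_div_atTop s
    filter_upwards [hlam.eventually (eventually_gt_atTop 0),
      h1.eventually (lt_mem_nhds (neg_neg_of_pos hT0))] with i hi hi'
    exact ⟨hi, ⟨hi', div_neg_of_neg_of_pos hs (pow_pos hi 2)⟩, by field_simp⟩
  have key : ∀ lam : ℕ → ℝ, Tendsto lam atTop atTop → ∀ s < 0,
      WeakTendsto (fun i => rescaled 2 μ x₀ (a + t₀) (lam i) s)
        ((μH[2] : Measure E3).restrict (√(-s) • {x | W x = 0})) := by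
    intro lam hlam s hs φ hφ hφc
    have hq : 0 < √(-s) := Real.sqrt_pos.2 (neg_pos.2 hs)
    have e3 : (μH[2] : Measure E3).restrict (√(-s) • {x | W x = 0}) = cH 2 • scal (ar W) √(-s) := by
      have := hT.ar_resc (fun _ => W) (√(-s))⁻¹ 0 (inv_pos.2 hq)
      rw [inv_inv] at this
      rw [← this, e2, hausdorff_eq_smul, Measure.restrict_smul, ar]
      congr 2
      ext x
      simp [resc, mem_smul_set_iff_inv_smul_mem₀ hq.ne', hq.ne']
    rw [e3]
    refine (weakTendsto_smul (hconv lam hlam s hs).1 (cH 2) φ hφ hφc).congr' ?_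
    filter_upwards [hev lam hlam s hs] with i ⟨hi, ht, h2⟩
    rw [rescaled, add_assoc, hμ _ (hI (Ioo_subset_Ico_self (hm _ ht))), ← hz _ (hm _ ht), e2,
      resc_meas, hT.ar_resc _ _ s (inv_pos.2 hi), inv_inv, h2]
    rfl
  refine ⟨fun ν ν' hν hν' s hs => ?_, _, W, isSmoothShrinker hW, hE, fun s hs => ⟨fun φ hφ hφc =>
    tendsto_iff_seq_tendsto.2 fun lam hlam => key lam hlam s hs φ hφ hφc, fun lam hlam =>
      P218UX.conv_congr (hconv lam hlam s hs).2 ((hev lam hlam s hs).mono fun i ⟨hi, ht, h2⟩ => ?_)⟩⟩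
  · obtain ⟨hl, lam, hlam, h⟩ := hν
    obtain ⟨hl', lam', hlam', h'⟩ := hν'
    have := hl s hs
    have := hl' s hs
    refine Measure.ext_of_integral_eq_on_compactlySupported fun φ => ?_
    exact (tendsto_nhds_unique (h s hs φ φ.continuous φ.hasCompactSupport)
      (key lam hlam s hs φ φ.continuous φ.hasCompactSupport)).trans
      (tendsto_nhds_unique (key lam' hlam' s hs φ φ.continuous φ.hasCompactSupport)
        (h' s hs φ φ.continuous φ.hasCompactSupport))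
  · ext x
    rw [← hz _ (hm _ ht)]
    simp only [mem_ofPred_eq, resc, h2, div_eq_zero_iff, inv_eq_zero, hi.ne', or_false, mem_image]
    exact ⟨fun h => ⟨_, h, by simp [hi.ne']⟩, fun ⟨y, hy, e⟩ => by simpa [← e, hi.ne'] using hy⟩

end Vale.Agent.P218VG
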