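import Vale.Agent.P218VG.Props

/-! The graph of the components of strips and slabs. -/

open Set Filter Topology

namespace Vale.Agent.P218VG

variable {X : Type} [TopologicalSpace X] {g : X → ℝ} {a b T : ℝ} {v : Set X}

/-- the components of the strip between two levels -/
def cs (g : X → ℝ) (a b : ℝ) : Set (Set X) :=
  {v | ∃ x, g x ∈ Ioo a b ∧ v = connectedComponentIn (g ⁻¹' Ioo a b) x}

lemma cs_sub (h : v ∈ cs g a b) {x : X} (hx : x ∈ v) : g x ∈ Ioo a b := by
  obtain ⟨y, -, rfl⟩ := h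
  exact connectedComponentIn_subset (g ⁻¹' Ioo a b) y hx

lemma cs_ne (h : v ∈ cs g a b) : v.Nonempty := by
  obtain ⟨y, hy, rfl⟩ := h
  exact ⟨y, mem_connectedComponentIn hy⟩

lemma cs_eq (h : v ∈ cs g a b) {x : X} (hx : x ∈ v) :
    v = connectedComponentIn (g ⁻¹' Ioo a b) x := by
  obtain ⟨y, -, rfl⟩ := h
  exact connectedComponentIn_eq hx

lemma cs_conn (h : v ∈ cs g a b) : IsPreconnected v := by
  obtain ⟨y, -, rfl⟩ := h
  exact isPreconnected_connectedComponentIn

lemma cs_uniq {v' : Set X} (h : v ∈ cs g a b) (h' : v' ∈ cs g a b) {x : X} (hx : x ∈ v)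
    (hx' : x ∈ v') : v = v' := (cs_eq h hx).trans (cs_eq h' hx').symm

lemma cs_cpt (hg : Continuous g) (hK : IsCompact {x | g x ≤ T}) (hb : b ≤ T) (h : v ∈ cs g a b) :
    IsCompact (closure v) :=
  hK.of_isClosed_subset isClosed_closure (closure_minimal
    (fun _ hx => (cs_sub h hx).2.le.trans hb) (isClosed_le hg continuous_const))

lemma const_on {s : Set X} (hs : IsPreconnected s) {G : X → ℝ}
    (h : ∀ x ∈ s, ∀ᶠ y in 𝓝 x, G y = G x) {x y : X} (hx : x ∈ s) (hy : y ∈ s) : G x = G y :=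
  hs.induction₂' (fun x y => G x = G y) (fun x hx => ((h x hx).filter_mono nhdsWithin_le_nhds).mono
    fun _ e => ⟨e.symm, e⟩) (fun _ _ _ _ _ _ => Eq.trans) hx hy

variable [LocallyConnectedSpace X]

lemma cs_open (hg : Continuous g) (h : v ∈ cs g a b) : IsOpen v := by
  obtain ⟨y, -, rfl⟩ := h
  exact (isOpen_Ioo.preimage hg).connectedComponentIn

lemma cs_clos (hg : Continuous g) (h : v ∈ cs g a b) {x : X} (hx : x ∈ closure v)
    (h' : g x ∈ Ioo a b) : x ∈ v := by
  obtain ⟨z, hz, hz'⟩ := mem_closure_iff.1 hx _ (cs_open hg ⟨x, h', rfl⟩)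
    (mem_connectedComponentIn h')
  rw [cs_uniq h ⟨x, h', rfl⟩ hz' hz]
  exact mem_connectedComponentIn h'

lemma reach_top (hg : Continuous g) (hK : IsCompact {x | g x ≤ T}) (hb : b ≤ T)
    (h : v ∈ cs g a b) (h1 : ∀ x ∈ v, x ∈ closure {z | g x < g z}) {s : ℝ} (hs : s < b) :
    ∃ x ∈ v, s < g x := by
  by_contra hc
  push Not at hc
  obtain ⟨y, hy⟩ := cs_ne h
  obtain ⟨q, hq, hm⟩ := (cs_cpt hg hK hb h).exists_isMaxOn ⟨y, subset_closure hy⟩ hg.continuousOn
  have h2 : q ∈ v := cs_clos hg h hq ⟨(cs_sub h hy).1.trans_le (hm (subset_closure hy)),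
    (closure_minimal (t := {z | g z ≤ s}) hc (isClosed_le hg continuous_const) hq).trans_lt hs⟩
  obtain ⟨z, hz, hz'⟩ := mem_closure_iff.1 (h1 q h2) _ (cs_open hg h) h2
  exact (not_le.2 (show g q < g z from hz')) (hm (subset_closure hz))

lemma reach_bot (hg : Continuous g) (hK : IsCompact {x | g x ≤ T}) (hb : b ≤ T)
    (h : v ∈ cs g a b) (h1 : ∀ x ∈ v, x ∈ closure {z | g z < g x}) {s : ℝ} (hs : a < s) :
    ∃ x ∈ v, g x < s := by
  by_contra hc
  push Not at hc
  obtain ⟨y, hy⟩ := cs_ne h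
  obtain ⟨q, hq, hm⟩ := (cs_cpt hg hK hb h).exists_isMinOn ⟨y, subset_closure hy⟩ hg.continuousOn
  have h2 : q ∈ v := cs_clos hg h hq ⟨hs.trans_le
    (closure_minimal (t := {z | s ≤ g z}) hc (isClosed_le continuous_const hg) hq),
    lt_of_le_of_lt (hm (subset_closure hy)) (cs_sub h hy).2⟩
  obtain ⟨z, hz, hz'⟩ := mem_closure_iff.1 (h1 q h2) _ (cs_open hg h) h2
  exact (not_le.2 (show g z < g q from hz')) (hm (subset_closure hz))

lemma reach_all (hg : Continuous g) (hK : IsCompact {x | g x ≤ T}) (hb : b ≤ T)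
    (h : v ∈ cs g a b) (h1 : ∀ x ∈ v, x ∈ closure {z | g x < g z} ∧ x ∈ closure {z | g z < g x})
    {s : ℝ} (hs : s ∈ Ioo a b) : ∃ x ∈ v, g x = s := by
  obtain ⟨x, hx, hx'⟩ := reach_top hg hK hb h (fun x hx => (h1 x hx).1) hs.2
  obtain ⟨y, hy, hy'⟩ := reach_bot hg hK hb h (fun x hx => (h1 x hx).2) hs.1
  exact (cs_conn h).intermediate_value hy hx hg.continuousOn ⟨hy'.le, hx'.le⟩

lemma cs_fin (hg : Continuous g) (hK : IsCompact {x | g x ≤ T}) (hb : b ≤ T) {Cr : Set X}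
    (hC : Cr.Finite) (h1 : ∀ x, g x < T → x ∉ Cr →
      x ∈ closure {z | g x < g z} ∧ x ∈ closure {z | g z < g x}) : (cs g a b).Finite := by
  rcases le_or_gt b a with hab | hab
  · exact finite_empty.subset fun v hv => by
      obtain ⟨x, hx, -⟩ := hv
      exact absurd (hx.1.trans hx.2) (not_lt.2 hab)
  have hm : (a + b) / 2 ∈ Ioo a b := ⟨by linarith, by linarith⟩
  have h2 : IsCompact ({x | g x = (a + b) / 2} ∪ Cr ∩ g ⁻¹' Ioo a b) :=
    (hK.of_isClosed_subset (isClosed_eq hg continuous_const) fun x hx =>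
      (le_of_eq hx).trans (hm.2.le.trans hb)).union (hC.inter_of_left _).isCompact
  have h3 : ∀ x ∈ {x | g x = (a + b) / 2} ∪ Cr ∩ g ⁻¹' Ioo a b, g x ∈ Ioo a b := by
    rintro x (hx | hx)
    · exact (show g x = (a + b) / 2 from hx) ▸ hm
    · exact hx.2
  obtain ⟨t, ht, hc⟩ := h2.elim_nhds_subcover (connectedComponentIn (g ⁻¹' Ioo a b)) fun x hx =>
    (cs_open hg ⟨x, h3 x hx, rfl⟩).mem_nhds (mem_connectedComponentIn (h3 x hx))
  refine (t.finite_toSet.image (connectedComponentIn (g ⁻¹' Ioo a b))).subset fun v hv => ?_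
  obtain ⟨y, hy, hy'⟩ : ∃ y ∈ v, y ∈ {x | g x = (a + b) / 2} ∪ Cr ∩ g ⁻¹' Ioo a b := by
    by_cases h4 : ∃ y ∈ v, y ∈ Cr
    · obtain ⟨y, hy, hy'⟩ := h4
      exact ⟨y, hy, Or.inr ⟨hy', cs_sub hv hy⟩⟩
    · push Not at h4
      obtain ⟨y, hy, hy'⟩ := reach_all hg hK hb hv
        (fun x hx => h1 x ((cs_sub hv hx).2.trans_le hb) (h4 x hx)) hm
      exact ⟨y, hy, Or.inl hy'⟩
  obtain ⟨x, hx, hxy⟩ := mem_iUnion₂.1 (hc hy')
  exact ⟨x, hx, cs_uniq ⟨x, h3 x (ht x hx), rfl⟩ hv hxy hy⟩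

/-- a ramp from `0` to `2π` in the middle third of `(a, b)` -/
noncomputable def ramp (a b s : ℝ) : ℝ := 2 * Real.pi * max 0 (min 1 (3 * ((s - a) / (b - a)) - 1))

lemma continuous_ramp : Continuous (ramp a b) := by
  unfold ramp
  fun_prop

lemma ramp_zero (hab : a < b) {s : ℝ} (h : s < a + (b - a) / 3) : ramp a b s = 0 := by
  have : (s - a) / (b - a) < 1 / 3 := by
    rw [div_lt_iff₀ (by linarith)]
    linarith
  rw [ramp, max_eq_left ((min_le_right _ _).trans (by linarith)), mul_zero]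

lemma ramp_one (hab : a < b) {s : ℝ} (h : b - (b - a) / 3 < s) : ramp a b s = 2 * Real.pi := by
  have : 2 / 3 < (s - a) / (b - a) := by
    rw [lt_div_iff₀ (by linarith)]
    linarith
  rw [ramp, min_eq_left (by linarith), max_eq_right zero_le_one, mul_one]

lemma contAt_ind (hg : Continuous g) (h : v ∈ cs g a b) {r : ℝ → ℝ} (hr : Continuous r) {x : X}
    (hx : g x ∈ Ioo a b ∨ ∀ᶠ s in 𝓝 (g x), r s = 0) :
    ContinuousAt (v.indicator fun y => r (g y)) x := by
  by_cases h1 : x ∈ v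
  · refine (hr.comp hg).continuousAt.congr ?_
    filter_upwards [(cs_open hg h).mem_nhds h1] with y hy using (indicator_of_mem hy _).symm
  refine (continuousAt_const (y := (0 : ℝ))).congr ?_
  rcases hx with hx | hx
  · filter_upwards [isClosed_closure.isOpen_compl.mem_nhds fun h2 => h1 (cs_clos hg h h2 hx)]
      with y hy using (indicator_of_notMem (fun h3 => hy (subset_closure h3)) _).symm
  · filter_upwards [hg.continuousAt.eventually hx] with y hy
    by_cases h2 : y ∈ v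
    · rw [indicator_of_mem h2, hy]
    · rw [indicator_of_notMem h2]

lemma contAt_lo (hg : Continuous g) (h : v ∈ cs g a b) {x : X} (hx : g x < b) :
    ContinuousAt (v.indicator fun y => ramp a b (g y)) x := by
  obtain ⟨y, hy⟩ := cs_ne h
  have hab := (cs_sub h hy).1.trans (cs_sub h hy).2
  refine contAt_ind hg h continuous_ramp ((lt_or_ge a (g x)).imp (fun h1 => ⟨h1, hx⟩) fun h1 => ?_)
  filter_upwards [gt_mem_nhds (by linarith : g x < a + (b - a) / 3)] with s hs
    using ramp_zero hab hs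

lemma contAt_hi (hg : Continuous g) (h : v ∈ cs g a b) {x : X} (hx : a < g x) :
    ContinuousAt (v.indicator fun y => ramp a b (g y) - 2 * Real.pi) x := by
  obtain ⟨y, hy⟩ := cs_ne h
  have hab := (cs_sub h hy).1.trans (cs_sub h hy).2
  refine contAt_ind hg h (r := fun s => ramp a b s - 2 * Real.pi)
    (continuous_ramp.sub continuous_const)
    ((lt_or_ge (g x) b).imp (fun h1 => ⟨hx, h1⟩) fun h1 => ?_)
  filter_upwards [lt_mem_nhds (by linarith : b - (b - a) / 3 < g x)] with s hs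
  rw [ramp_one hab hs, sub_self]

omit [TopologicalSpace X] [LocallyConnectedSpace X] in
lemma exp_hi (r : X → ℝ) (y : X) : Circle.exp (v.indicator (fun y => r y - 2 * Real.pi) y)
    = Circle.exp (v.indicator r y) := by
  by_cases h : y ∈ v
  · rw [indicator_of_mem h, indicator_of_mem h, Circle.exp_sub_two_pi]
  · rw [indicator_of_notMem h, indicator_of_notMem h]

theorem graph_le {B : ℕ} (hB : H1le X B) (hg : Continuous g) (hK : IsCompact {x | g x ≤ T})
    {lo hi : ℕ → ℝ} (h1 : ∀ i, lo i < hi i) (h2 : ∀ i, hi i ≤ lo (i + 1)) {m : ℕ}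
    (hT : hi m ≤ T) (f1 : ∀ i < m, (cs g (lo (i + 1)) (hi (i + 1))).Finite)
    (f2 : ∀ i < m + 1, (cs g (lo i) (hi (i + 1))).Finite) :
    ∑ i ∈ Finset.range m, (cs g (lo (i + 1)) (hi (i + 1))).ncard
      ≤ B + ∑ i ∈ Finset.range (m + 1), (cs g (lo i) (hi (i + 1))).ncard := by
  classical
  have mlo : Monotone lo := monotone_nat_of_le_succ fun i => (h1 i).le.trans (h2 i)
  have mhi : Monotone hi := monotone_nat_of_le_succ fun i => (h2 i).trans (h1 _).le
  let ι := Σ i : Fin m, cs g (lo (i + 1)) (hi (i + 1))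
  let κ := Σ i : Fin (m + 1), cs g (lo i) (hi (i + 1))
  let _ : ∀ i : Fin m, Fintype (cs g (lo (i + 1)) (hi (i + 1))) := fun i => (f1 i i.2).fintype
  let _ : ∀ i : Fin (m + 1), Fintype (cs g (lo i) (hi (i + 1))) := fun i => (f2 i i.2).fintype
  let θ₁ : ι → X → ℝ := fun e =>
    e.2.1.indicator fun y => ramp (lo (e.1 + 1)) (hi (e.1 + 1)) (g y)
  let θ₂ : ι → X → ℝ := fun e =>
    e.2.1.indicator fun y => ramp (lo (e.1 + 1)) (hi (e.1 + 1)) (g y) - 2 * Real.pi
  have hθ : ∀ e y, Circle.exp (θ₂ e y) = Circle.exp (θ₁ e y) := fun e y => exp_hi _ y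
  obtain ⟨P, hP, hL⟩ := hB ι (fun e y => Circle.exp (θ₁ e y)) (fun e =>
    continuous_iff_continuousAt.2 fun x => by
      rcases lt_or_ge (g x) (hi (e.1 + 1)) with h | h
      · exact Circle.exp.continuous.continuousAt.comp (contAt_lo hg e.2.2 h)
      · simp only [← hθ]
        exact Circle.exp.continuous.continuousAt.comp (contAt_hi hg e.2.2 ((h1 _).trans_le h)))
    fun e => ⟨_, hK, fun x hx => by
      simp only [θ₁]
      rw [indicator_of_notMem fun h => hx ((cs_sub e.2.2 h).2.le.trans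
        ((mhi (Nat.succ_le_of_lt e.1.2)).trans hT)), Circle.exp_zero]⟩
  choose pt hpt using fun e : ι => cs_ne e.2.2
  choose pv hpv using fun e : κ => cs_ne e.2.2
  have m1 : ∀ e : ι, g (pt e) ∈ Ioo (lo e.1) (hi (e.1 + 1)) := fun e =>
    ⟨(mlo (Nat.le_succ _)).trans_lt (cs_sub e.2.2 (hpt e)).1, (cs_sub e.2.2 (hpt e)).2⟩
  have m2 : ∀ e : ι, g (pt e) ∈ Ioo (lo (e.1 + 1)) (hi (e.1 + 1 + 1)) := fun e =>
    ⟨(cs_sub e.2.2 (hpt e)).1, (cs_sub e.2.2 (hpt e)).2.trans_le (mhi (Nat.le_succ _))⟩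
  let dn : ι → κ := fun e => ⟨e.1.castSucc, _, pt e, m1 e, rfl⟩
  let up : ι → κ := fun e => ⟨e.1.succ, _, pt e, m2 e, rfl⟩
  let δ : (κ → ℝ) →ₗ[ℝ] (ι → ℝ) := (2 * Real.pi)⁻¹ •
    (LinearMap.funLeft ℝ ℝ up - LinearMap.funLeft ℝ ℝ dn)
  have key : P ≤ LinearMap.range δ := fun k hk => by
    obtain ⟨L, hL⟩ := hL k hk
    let Θ : ℕ → ι → X → ℝ := fun j e => if j ≤ e.1 then θ₁ e else θ₂ e
    let G : ℕ → X → ℝ := fun j x => L x - ∑ e, k e * Θ j e x
    have hG : ∀ (u : κ) x, x ∈ u.2.1 → G u.1 (pv u) = G u.1 x := fun u x hx =>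
      const_on (cs_conn u.2.2) (fun y hy => hL y (Θ u.1) (fun e => by
        simp only [Θ]
        split_ifs with h
        · exact contAt_lo hg e.2.2 ((cs_sub u.2.2 hy).2.trans_le (mhi (Nat.succ_le_succ h)))
        · exact contAt_hi hg e.2.2 ((mlo (not_le.1 h)).trans_lt (cs_sub u.2.2 hy).1))
        fun e => Eventually.of_forall fun z => by
          simp only [Θ]
          split_ifs
          · rfl
          · exact hθ e z) (hpv u) hx
    refine ⟨fun u => G u.1 (pv u), funext fun e => ?_⟩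
    have e1 := hG (up e) (pt e) (mem_connectedComponentIn (m2 e))
    have e2 := hG (dn e) (pt e) (mem_connectedComponentIn (m1 e))
    have e3 : ∑ e', k e' * Θ e.1 e' (pt e) - ∑ e', k e' * Θ (e.1 + 1) e' (pt e)
        = 2 * Real.pi * k e := by
      rw [← Finset.sum_sub_distrib, Finset.sum_eq_single e]
      · simp only [Θ, le_refl, if_true, Nat.add_one_le_iff, lt_irrefl, if_false, θ₁, θ₂,
          indicator_of_mem (hpt e)]
        ring
      · rintro ⟨i', v'⟩ - hne
        by_cases h3 : pt e ∈ v'.1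
        · have h4 : i' = e.1 := by
            by_contra h4
            have h5 := cs_sub v'.2 h3
            have h6 := cs_sub e.2.2 (hpt e)
            rcases lt_or_gt_of_ne (Fin.val_ne_of_ne h4) with h7 | h7
            · linarith [h5.2, h6.1, h2 (i' + 1), mlo (Nat.succ_le_succ (Nat.succ_le_of_lt h7))]
            · linarith [h5.1, h6.2, h2 (e.1 + 1), mlo (Nat.succ_le_succ (Nat.succ_le_of_lt h7))]
          obtain ⟨i, u⟩ := e
          subst h4
          exact absurd (congrArg (Sigma.mk i') (Subtype.ext (cs_uniq v'.2 u.2 h3 (hpt ⟨i', u⟩))))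
            hne
        · simp only [Θ, θ₁, θ₂]
          split_ifs <;> simp [indicator_of_notMem h3]
      · simp
    change (2 * Real.pi)⁻¹ * (G (up e).1 (pv (up e)) - G (dn e).1 (pv (dn e))) = k e
    rw [e1, e2]
    change (2 * Real.pi)⁻¹ * ((L _ - ∑ e', k e' * Θ (e.1 + 1) e' (pt e))
      - (L _ - ∑ e', k e' * Θ e.1 e' (pt e))) = k e
    rw [sub_sub_sub_cancel_left, e3, inv_mul_cancel_left₀ Real.two_pi_pos.ne']
  have k1 := (Submodule.finrank_mono key).trans (LinearMap.finrank_range_le δ)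
  rw [Module.finrank_fintype_fun_eq_card] at k1
  have c1 : Fintype.card ι = ∑ i ∈ Finset.range m, (cs g (lo (i + 1)) (hi (i + 1))).ncard := by
    rw [Fintype.card_sigma, Finset.sum_range]
    exact Finset.sum_congr rfl fun i _ => by rw [← Nat.card_eq_fintype_card, Nat.card_coe_set_eq]
  have c2 : Fintype.card κ = ∑ i ∈ Finset.range (m + 1), (cs g (lo i) (hi (i + 1))).ncard := by
    rw [Fintype.card_sigma, Finset.sum_range]
    exact Finset.sum_congr rfl fun i _ => by rw [← Nat.card_eq_fintype_card, Nat.card_coe_set_eq]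
  omega

end Vale.Agent.P218VG
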