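import Vale.Agent.P218UE.L0
import Vale.Agent.P218VG.Props

/-! `L0B`: Morse functions close to the squared distance on a bounded part of a surface. -/

open MeasureTheory Set Filter Topology Metric
open scoped NNReal RealInnerProductSpace ContDiff

namespace Vale.Agent.P218VG

open Vale.Agent.P218UA Vale.Agent.P218UE
open Vale.Agent.P218UL

variable {w : E3 → ℝ}

lemma focal_nullB (hw : IsSurf w) {K : Set E3} (hK : IsCompact K) (h0 : ∀ x ∈ K, w x = 0) :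
    volume (focal w K) = 0 := by
  have h1 : ∀ p ∈ K, ∃ U ∈ 𝓝 p, volume (focal w U) = 0 := fun p hp => by
    obtain ⟨Q, R, h, u, h1, h2, -, -, h5, h6, -⟩ := chart w hw p (h0 p hp) 1 one_pos
    exact ⟨_, (isOpen_cyl Q p R h).mem_nhds (mem_cyl Q p h1 h2), focal_chart hw h6 (h5.of_le one_le)⟩
  choose! U hU h0 using h1
  obtain ⟨T, hT, hcov⟩ := hK.elim_nhds_subcover U hU
  refine measure_mono_null (t := ⋃ p ∈ T, focal w (U p)) ?_
    ((measure_biUnion_null_iff T.countable_toSet).2 fun p hp => h0 p (hT p hp))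
  rintro z ⟨x, h, hx⟩
  obtain ⟨p, hp, hxp⟩ := mem_iUnion₂.1 (hcov h)
  exact mem_biUnion hp ⟨x, hxp, hx⟩

lemma finite_critB (hw : IsSurf w) {K : Set E3} (hK : IsCompact K) (h0 : ∀ x ∈ K, w x = 0)
    {f : E3 → ℝ} (hf : ContDiff ℝ 2 f) (hd : ∀ x ∈ K, gM w f x = 0 → detM w f x ≠ 0) :
    {x | x ∈ K ∧ gM w f x = 0}.Finite := by
  have h1 : IsCompact {x | x ∈ K ∧ gM w f x = 0} := hK.inter_right (isClosed_eq
    (contDiff_gM (n := 1) (hw.smooth.of_le two_le) hf).continuous continuous_const)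
  refine h1.finite (isDiscrete_iff_nhdsNE.2 fun x hx => ?_)
  rw [inf_principal_eq_bot]
  exact (isolated hw hf (h0 x hx.1) hx.2 (hd x hx.1 hx.2)).mono fun y hy h => hy ⟨h0 y h.1, h.2⟩

lemma exists_stepsB (s : Finset E3) (k : E3 → ℝ) : ∃ (B : E3 → ℝ) (δ : ℝ), 0 < δ ∧
    ContDiff ℝ ∞ B ∧ (∃ C, ∀ y, |B y| ≤ C) ∧ ∀ p ∈ s, ∀ y ∈ ball p δ, B y = k p := by
  obtain ⟨δ, hδ, hsep⟩ := exists_sep s
  let β : (p : E3) → ContDiffBump p := fun p => ⟨δ / 2, δ, half_pos hδ, half_lt_self hδ⟩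
  refine ⟨fun y => ∑ p ∈ s, k p * β p y, δ / 2, half_pos hδ,
    ContDiff.sum fun p _ => contDiff_const.mul (β p).contDiff, ⟨∑ p ∈ s, |k p|, fun y =>
      (Finset.abs_sum_le_sum_abs _ _).trans (Finset.sum_le_sum fun p _ => ?_)⟩,
    fun p hp y hy => ?_⟩
  · rw [abs_mul, abs_of_nonneg (β p).nonneg]
    exact mul_le_of_le_one_right (abs_nonneg _) (β p).le_one
  simp only
  rw [Finset.sum_eq_single_of_mem p hp, (β p).one_of_mem_closedBall (ball_subset_closedBall hy),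
    mul_one]
  intro q hq hqp
  rw [(β q).zero_of_le_dist, mul_zero]
  have h1 := hsep q hq p hp hqp
  have h2 := dist_triangle_left q p y
  rw [mem_ball] at hy
  change δ ≤ _
  linarith

lemma l0K (hw : IsSurf w) {K : Set E3} (hK : IsCompact K) (hK0 : ∀ x ∈ K, w x = 0) (z : E3)
    {ε η : ℝ} (hε : 0 < ε) (hη : 0 < η) : ∃ (f : E3 → ℝ) (crit : Finset E3), ContDiff ℝ ∞ f ∧
      (∀ x, x ∈ crit ↔ x ∈ K ∧ gM w f x = 0) ∧ (∀ p ∈ crit, detM w f p ≠ 0) ∧
      InjOn f (crit : Set E3) ∧ (∃ z', ‖z - z'‖ < η ∧ ∀ x, |f x - ‖x - z'‖ ^ 2 / 2| ≤ η) ∧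
      ∀ x ∈ K, |f x - ‖x - z‖ ^ 2 / 2| ≤ ε ∧ ‖gradient f x‖ ≤ ‖x - z‖ + ε ∧ ‖hs f x‖ ≤ 2 := by
  obtain ⟨D, hD, hsub⟩ := hK.isBounded.subset_ball_lt 0 z
  have hδ : 0 < min η (min 1 (ε / (2 * (D + 1)))) := lt_min hη (lt_min one_pos (by positivity))
  obtain ⟨z', hz'1, hz'2⟩ := (Measure.dense_of_ae (μ := (volume : Measure E3))
    (compl_mem_ae_iff.2 (focal_nullB hw hK hK0))).exists_mem_open isOpen_ball
    (nonempty_ball.2 hδ : (ball z _).Nonempty)
  have hnd : ∀ x ∈ K, gM w (P218UE.sq z') x = 0 → detM w (P218UE.sq z') x ≠ 0 := fun x h1 h2 h3 =>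
    hz'1 ⟨x, h1, hK0 x h1, h2, h3⟩
  have s2 : ContDiff ℝ 2 (P218UE.sq z') := (smooth_sq z').of_le two_le
  have hfin := finite_critB hw hK hK0 s2 hnd
  set crit := hfin.toFinset with hcrit
  have hmem : ∀ x, x ∈ crit ↔ x ∈ K ∧ gM w (P218UE.sq z') x = 0 := fun x => hfin.mem_toFinset
  obtain ⟨k, hk⟩ := Set.countable_iff_exists_injOn.1 crit.countable_toSet
  obtain ⟨B, δ, hδ0, hB, ⟨C₀, hC₀⟩, hBk⟩ := exists_stepsB crit fun p => (k p : ℝ)
  have B2 : ContDiff ℝ 2 B := hB.of_le two_le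
  obtain ⟨C, hC⟩ := hK.exists_bound_of_continuousOn
    (f := fun x => |B x| + ‖gradient B x‖ + ‖hs B x‖) ((hB.continuous.abs.add
      (smooth_grad hB).continuous.norm).add (continuous_hs B2).norm).continuousOn
  have hO : IsOpen (⋃ p ∈ crit, ball p δ) := isOpen_biUnion fun _ _ => isOpen_ball
  obtain ⟨c, hc, hcle⟩ : ∃ c > 0, ∀ x ∈ K \ ⋃ p ∈ crit, ball p δ,
      c ≤ ‖gM w (P218UE.sq z') x‖ := by
    refine (hK.diff hO).exists_forall_le' (smooth_gM hw.smooth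
      (smooth_sq z')).continuous.norm.continuousOn fun x hx => norm_pos_iff.2 fun h0 => ?_
    exact hx.2 (mem_biUnion ((hmem x).2 ⟨hx.1, h0⟩) (mem_ball_self hδ0))
  have e1 : ∀ᶠ τ in 𝓝[≠] (0 : ℝ), |τ| * C < min c (min 1 (ε / 2)) := by
    have : Tendsto (fun τ : ℝ => |τ| * C) (𝓝 0) (𝓝 (|0| * C)) := tendsto_id.abs.mul_const C
    rw [abs_zero, zero_mul] at this
    exact (this.eventually (gt_mem_nhds (by positivity))).filter_mono nhdsWithin_le_nhds
  have e2 : ∀ᶠ τ in 𝓝[≠] (0 : ℝ), ∀ p ∈ crit, ∀ q ∈ crit,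
      τ ≠ (P218UE.sq z' q - P218UE.sq z' p) / (k p - k q) := by
    simp only [eventually_all_finset]
    exact fun p _ q _ => (eventually_cofinite_ne _).filter_mono (nhdsNE_le_cofinite _)
  have e3 : ∀ᶠ τ in 𝓝[≠] (0 : ℝ), |τ| * C₀ < η := by
    have : Tendsto (fun τ : ℝ => |τ| * C₀) (𝓝 0) (𝓝 (|0| * C₀)) := tendsto_id.abs.mul_const C₀
    rw [abs_zero, zero_mul] at this
    exact (this.eventually (gt_mem_nhds hη)).filter_mono nhdsWithin_le_nhds
  obtain ⟨τ, ⟨hτ1, hτ2⟩, hτ3⟩ := ((e1.and e2).and e3).exists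
  rw [mem_ball, dist_comm, dist_eq_norm, lt_min_iff] at hz'2
  obtain ⟨hz'3, hz'2⟩ := hz'2
  have b : ∀ x ∈ K, |τ * B x| < min c (min 1 (ε / 2)) ∧
      ‖τ • gradient B x‖ < min c (min 1 (ε / 2)) ∧ ‖τ • hs B x‖ < min c (min 1 (ε / 2)) := by
    intro x hx
    have h1 := (le_abs_self _).trans (hC x hx)
    have h2 := abs_nonneg (B x)
    have h3 := norm_nonneg (gradient B x)
    have h4 := norm_nonneg (hs B x)
    simp only [abs_mul, norm_smul, Real.norm_eq_abs]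
    refine ⟨lt_of_le_of_lt ?_ hτ1, lt_of_le_of_lt ?_ hτ1, lt_of_le_of_lt ?_ hτ1⟩ <;>
      exact mul_le_mul_of_nonneg_left (by linarith) (abs_nonneg _)
  have g1 := grad_add_smul (s2.differentiable two_ne_zero) (B2.differentiable two_ne_zero) τ
  have g2 := hs_add_smul s2 B2 τ
  have g3 : ∀ x, gM w (fun x => P218UE.sq z' x + τ * B x) x
      = gM w (P218UE.sq z') x + gT (gradient w x) (τ • gradient B x) := fun x => by
    simp only [gM, g1, gT, inner_add_right, add_smul]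
    abel
  have g4 : ∀ p ∈ crit, ∀ x ∈ ball p δ, gM w (fun x => P218UE.sq z' x + τ * B x) x = gM w (P218UE.sq z') x :=
    fun p hp x hx => by rw [g3, (steps_grad (hBk p hp) hx).1]; simp [gT]
  refine ⟨fun x => P218UE.sq z' x + τ * B x, crit, (smooth_sq z').add (contDiff_const.mul hB),
    fun x => ⟨fun hx => ?_, fun hx => ?_⟩, fun p hp => ?_, fun p hp q hq h => ?_,
    ⟨z', hz'3, fun x => ?_⟩, fun x hx => ?_⟩
  · rw [g4 x hx x (mem_ball_self hδ0)]
    exact (hmem x).1 hx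
  · by_cases h : x ∈ ⋃ p ∈ crit, ball p δ
    · obtain ⟨p, hp, hxp⟩ := mem_iUnion₂.1 h
      rw [g4 p hp x hxp] at hx
      exact (hmem x).2 hx
    · have h1 := hcle x ⟨hx.1, h⟩
      have h2 := hx.2
      rw [g3, add_eq_zero_iff_eq_neg] at h2
      rw [h2, norm_neg] at h1
      linarith [norm_gT_le (norm_nu hw (hK0 x hx.1)) (τ • gradient B x), (b x hx.1).2.1,
        min_le_left c (min 1 (ε / 2))]
  · have h1 := steps_grad (hBk p hp) (mem_ball_self hδ0)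
    have h2 := hnd p ((hmem p).1 hp).1 ((hmem p).1 hp).2
    simp only [detM, hM, g1, g2, h1.1, h1.2, smul_zero, add_zero] at h2 ⊢
    rwa [show τ • (0 : E3 →L[ℝ] E3) = 0 by ext1; simp, add_zero]
  · by_contra hpq
    have h1 : (k p : ℝ) - k q ≠ 0 := sub_ne_zero.2 fun h => hpq (hk hp hq (by exact_mod_cast h))
    refine hτ2 p hp q hq ?_
    simp only [hBk p hp p (mem_ball_self hδ0), hBk q hq q (mem_ball_self hδ0)] at h
    rw [eq_div_iff h1]
    linarith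
  · simp only [P218UE.sq, add_sub_cancel_left, abs_mul]
    exact (mul_le_mul_of_nonneg_left (hC₀ x) (abs_nonneg _)).trans hτ3.le
  · obtain ⟨b1, b2, b3⟩ := b x hx
    have m1 : min c (min 1 (ε / 2)) ≤ 1 := (min_le_right _ _).trans (min_le_left _ _)
    have m2 : min c (min 1 (ε / 2)) ≤ ε / 2 := (min_le_right _ _).trans (min_le_right _ _)
    have d1 : ‖x - z‖ < D := by simpa [dist_eq_norm] using hsub hx
    rw [lt_min_iff, lt_div_iff₀ (by positivity)] at hz'2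
    have d2 : x - z' = (x - z) + (z - z') := by abel
    have d3 := norm_nonneg (z - z')
    refine ⟨?_, ?_, ?_⟩
    · have h1 := abs_real_inner_le_norm (x - z) (z - z')
      have h2 : ‖x - z‖ * ‖z - z'‖ ≤ D * ‖z - z'‖ := by gcongr
      simp only [P218UE.sq, d2, norm_add_sq_real]
      rw [abs_le] at h1 ⊢
      rw [abs_lt] at b1
      constructor <;> nlinarith
    · rw [g1, grad_sq]
      refine (norm_add_le _ _).trans ?_
      have := norm_add_le (x - z) (z - z')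
      simp only [d2]
      nlinarith
    · rw [g2, hs_sq]
      refine (norm_add_le _ _).trans ?_
      linarith [ContinuousLinearMap.norm_id_le (𝕜 := ℝ) (E := E3)]

theorem l0B : L0B := by
  intro w hw z r ε hr hε
  have hK : IsCompact ({x | w x = 0} ∩ closedBall z (3 * r)) :=
    (isCompact_closedBall _ _).inter_left (isClosed_zero hw)
  obtain ⟨f, cr, h1, h2, h3, h4, ⟨z', h5, h6⟩, h7⟩ := l0K hw hK (fun x hx => hx.1) z hε
    (lt_min (half_pos hr) (pow_pos hr 2))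
  have h8 : ∀ x, f x ≤ 2 * r ^ 2 → ‖x - z‖ ≤ 3 * r := fun x hx => by
    have a1 := (abs_le.1 ((h6 x).trans (min_le_right _ _))).1
    have a2 := h5.trans_le (min_le_left _ _)
    have a3 : ‖x - z‖ ≤ ‖x - z'‖ + ‖z - z'‖ := by
      simpa only [dist_eq_norm] using dist_triangle_right x z z'
    have a4 : ‖x - z'‖ ≤ 5 / 2 * r := abs_le_of_sq_le_sq' (by nlinarith) (by positivity) |>.2
    linarith
  have h9 : ∀ x, w x = 0 → ‖x - z‖ ≤ 3 * r → x ∈ {x | w x = 0} ∩ closedBall z (3 * r) :=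
    fun x a b => ⟨a, mem_closedBall_iff_norm.2 b⟩
  refine ⟨f, cr.filter fun p => f p < 2 * r ^ 2, ⟨h1, hK.of_isClosed_subset
    ((isClosed_zero hw).inter (isClosed_le h1.continuous continuous_const))
    fun x hx => h9 x hx.1 (h8 x hx.2), fun x => ?_, fun p hp => h3 p (Finset.mem_filter.1 hp).1,
    h4.mono (Finset.coe_subset.2 (Finset.filter_subset _ _))⟩, fun x _ => h8 x,
    fun x a b => h7 x (h9 x a b)⟩
  rw [Finset.mem_filter, h2]
  exact ⟨fun h => ⟨h.1.1.1, h.2, h.1.2⟩, fun h => ⟨⟨h9 x h.1 (h8 x h.2.1.le), h.2.2⟩, h.2.1⟩⟩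

end Vale.Agent.P218VG
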