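import Vale.Agent.P218VG.Static

/-! `L1B`: the weighted Gauss-Bonnet-Poincaré-Hopf formula on a compact sublevel set. -/

open MeasureTheory Set Filter Topology Metric
open scoped NNReal RealInnerProductSpace ContDiff

namespace Vale.Agent.P218VG

open Vale.Agent.P218UA Vale.Agent.P218UE
open Vale.Agent.P218UL
open Vale.Agent.P218.H63 (lap hessSq)

variable {w f : E3 → ℝ} {T : ℝ}

lemma ev_zero {V : Type*} [Zero V] (hf : Continuous f) {X : E3 → V} (h0 : ∀ x, T < f x → X x = 0)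
    {x : E3} (hx : T < f x) : X =ᶠ[𝓝 x] fun _ => 0 :=
  (hf.continuousAt.eventually (lt_mem_nhds hx)).mono h0

lemma div_zeroB (hC : Calc) (hw : IsSurf w) (hf : Continuous f)
    (hK : IsCompact {x | w x = 0 ∧ f x ≤ T}) {X : E3 → E3} (hX : ContDiff ℝ 1 X)
    (h0 : ∀ x, T < f x → X x = 0) (hT : ∀ x, w x = 0 → ⟪X x, gradient w x⟫ = 0) :
    ∫ x, trT (gradient w x) (fderiv ℝ X x) ∂(ar w) = 0 := by
  obtain ⟨R, hR, hsub⟩ := hK.isBounded.subset_ball_lt 0 (0 : E3)
  let β : ContDiffBump (0 : E3) := ⟨R, R + 1, hR, by linarith⟩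
  have h1 := hC.firstVar w hw (fun x => β x • X x) ((β.contDiff (n := 1)).smul hX)
    (β.hasCompactSupport.smul_right)
  have h2 : ∀ x, w x = 0 → (fun x => β x • X x) =ᶠ[𝓝 x] X := fun x hx => by
    rcases le_or_gt (f x) T with h | h
    · filter_upwards [β.eventuallyEq_one_of_mem_ball (hsub ⟨hx, h⟩)] with y hy
      simp [hy]
    · filter_upwards [ev_zero hf h0 h] with y hy
      simp [hy]
  rw [← integral_congr_ae (f := fun x => trT (gradient w x) (fderiv ℝ (fun x => β x • X x) x))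
    ((ae_zero hw).mono fun x hx => by simp only [(h2 x hx).fderiv_eq]), h1]
  refine integral_eq_zero_of_ae ((ae_zero hw).mono fun x hx => ?_)
  simp only [real_inner_smul_left, hT x hx, mul_zero, Pi.zero_apply]

lemma stokesB (hC : Calc) (hw : IsSurf w) (hf : Continuous f)
    (hK : IsCompact {x | w x = 0 ∧ f x ≤ T}) {a b : E3 → ℝ} (ha : ContDiff ℝ 1 a)
    (hb : ContDiff ℝ 2 b) (h0 : ∀ x, T < f x → a x = 0) : ∫ x, br w a b x ∂(ar w) = 0 := by
  have hn : ContDiff ℝ 1 (gradient w) := (smooth_grad hw.smooth).of_le one_le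
  have hg : ContDiff ℝ 1 (gradient b) := contDiff_grad hb (by norm_num)
  have h1 := div_zeroB hC hw hf hK (X := fun x => a x • cr (gradient w x) (gradient b x))
    (ha.smul (contDiff_cr hn hg)) (fun x hx => by simp [h0 x hx]) fun x _ => by
      rw [real_inner_smul_left, real_inner_comm, inner_cr_left, mul_zero]
  rw [← neg_eq_zero, ← integral_neg, ← h1]
  refine integral_congr_ae ((ae_zero hw).mono fun x hx => ?_)
  obtain ⟨e₁, e₂, h⟩ := exists_fr (norm_nu hw hx)
  have d1 := ha.differentiable one_ne_zero x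
  have d2 := (contDiff_cr hn hg).differentiable one_ne_zero x
  have d3 := fun v => fderiv_cr (hn.differentiable one_ne_zero x) (hg.differentiable one_ne_zero x) v
  have s1 := hs_symm (surf2 hw x) e₁ e₂
  have s2 := hs_symm (hb.contDiffAt (x := x)) e₁ e₂
  simp only [br_eq h, Fr_trT h, fderiv_fun_smul d1 d2, add_apply,
    smul_apply, ContinuousLinearMap.smulRight_apply, inner_add_right,
    real_inner_smul_right, d3, h.c1, h.c2, h.o13, h.o23, h.i33]
  simp only [← hs.eq_1, inner_nu_hs hw hx, real_inner_comm _ e₁, real_inner_comm _ e₂,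
    ← inner_grad] at s1 s2 ⊢
  rw [s1, s2]
  ring

lemma stokesVB (hC : Calc) (hw : IsSurf w) (hf : Continuous f)
    (hK : IsCompact {x | w x = 0 ∧ f x ≤ T}) {U V : E3 → E3} (hU : ContDiff ℝ 1 U)
    (hV : ContDiff ℝ 2 V) (h0 : ∀ x, T < f x → U x = 0) : ∫ x, brV w U V x ∂(ar w) = 0 := by
  have h3 : ∀ i x, T < f x → U x i = 0 := fun i x hx => by simp [h0 x hx]
  have h1 : ∀ i, ContDiff ℝ 1 fun y => U y i := fun i =>
    (EuclideanSpace.proj i : E3 →L[ℝ] ℝ).contDiff.comp hU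
  have h2 : ∀ i, ContDiff ℝ 2 fun y => V y i := fun i =>
    (EuclideanSpace.proj i : E3 →L[ℝ] ℝ).contDiff.comp hV
  unfold brV
  rw [integral_finsetSum _ fun i _ => int_cut hC hw hK (continuous_br
    (hw.smooth.of_le one_le) (h1 i) ((h2 i).of_le (by norm_num))) fun x hx => by
      rw [br, (ev_zero hf (h3 i) hx).gradient_eq, gradient_fun_const]
      simp [cr, inner3, -inner_gradient_left]]
  exact Finset.sum_eq_zero fun i _ => stokesB hC hw hf hK (h1 i) (h2 i) (h3 i)

lemma conc_allB (hC : Calc) (hG : Graph) (hw : IsSurf w) {crit : Finset E3}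
    (hm : IsMorseB w f crit T) {k : E3 → ℝ} (hk : Continuous k) {T' : ℝ} (hT : T' < T)
    (h0 : ∀ x, T' < f x → k x = 0) :
    Tendsto (fun ε : ℝ => ∫ x, k x * (ε ^ 2 / (‖gM w f x‖ ^ 2 + ε ^ 2) ^ 2) ∂(ar w))
      (𝓝[>] 0) (𝓝 (∑ p ∈ crit, k p * (Real.pi / |detM w f p|))) := by
  have hf : ContDiff ℝ 2 f := hm.smooth.of_le two_le
  have hgM : Continuous (gM w f) := (smooth_gM hw.smooth hm.smooth).continuous
  have hK : IsCompact {x | w x = 0 ∧ f x ≤ T'} := hm.cpt.of_isClosed_subset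
    ((isClosed_zero hw).inter (isClosed_le hf.continuous continuous_const))
    fun x hx => ⟨hx.1, hx.2.trans hT.le⟩
  obtain ⟨δ, hδ, hsep⟩ := exists_sep crit
  have h1 := fun p (hp : p ∈ crit) => conc_point hG hw hf ((hm.mem p).1 hp).1 ((hm.mem p).1 hp).2.2
    (hm.nondeg p hp) hk hδ
  choose! U hU hpU hUb hlim using h1
  have hO : IsOpen (⋃ p ∈ crit, U p) := isOpen_biUnion hU
  have hdis : Set.Pairwise (crit : Set E3) (Function.onFun Disjoint U) := fun p hp q hq h =>
    (ball_disjoint_ball (by linarith [hsep p hp q hq h])).mono (hUb p hp) (hUb q hq)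
  have hZ : IsCompact ({x | w x = 0 ∧ f x ≤ T'} \ ⋃ p ∈ crit, U p) := hK.diff hO
  obtain ⟨c, hc, hcle⟩ : ∃ c > 0, ∀ x ∈ {x | w x = 0 ∧ f x ≤ T'} \ ⋃ p ∈ crit, U p,
      c ≤ ‖gM w f x‖ := by
    refine hZ.exists_forall_le' hgM.norm.continuousOn fun x hx => norm_pos_iff.2 fun h0 => ?_
    have := (hm.mem x).2 ⟨hx.1.1, hx.1.2.trans_lt hT, h0⟩
    exact hx.2 (mem_biUnion this (hpU x this))
  have h2 : Tendsto (fun ε : ℝ => ∫ x in (⋃ p ∈ crit, U p)ᶜ,
      k x * (ε ^ 2 / (‖gM w f x‖ ^ 2 + ε ^ 2) ^ 2) ∂(ar w)) (𝓝[>] 0) (𝓝 0) := by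
    have t : Tendsto (fun ε : ℝ => ε ^ 2 / c ^ 4 * ∫ x in (⋃ p ∈ crit, U p)ᶜ, |k x| ∂(ar w))
        (𝓝[>] 0) (𝓝 (0 ^ 2 / c ^ 4 * ∫ x in (⋃ p ∈ crit, U p)ᶜ, |k x| ∂(ar w))) :=
      (((tendsto_id.pow 2).div_const _).mul_const _).mono_left nhdsWithin_le_nhds
    rw [zero_pow two_ne_zero, zero_div, zero_mul] at t
    refine squeeze_zero_norm (fun ε => ?_) t
    rw [← integral_const_mul]
    refine norm_integral_le_of_norm_le
      (((int_cut hC hw hK hk.abs fun x hx => by simp [h0 x hx]).const_mul _).integrableOn) ?_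
    filter_upwards [ae_restrict_mem hO.measurableSet.compl, ae_restrict_of_ae (ae_zero hw)]
      with x h1 h2
    rcases lt_or_ge T' (f x) with h | h
    · simp [h0 x h]
    have h3 := hcle x ⟨⟨h2, h⟩, h1⟩
    rw [norm_mul, mul_comm, Real.norm_eq_abs, Real.norm_eq_abs, abs_of_nonneg (by positivity)]
    have h4 : c ^ 4 ≤ (‖gM w f x‖ ^ 2 + ε ^ 2) ^ 2 :=
      calc c ^ 4 = (c ^ 2 + 0) ^ 2 := by ring
        _ ≤ _ := by gcongr; positivity
    gcongr
  have h3 := (tendsto_finsetSum crit hlim).add h2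
  rw [add_zero] at h3
  refine h3.congr' (eventually_mem_nhdsWithin.mono fun ε (hε : 0 < ε) => ?_)
  have hi : Integrable (fun x => k x * (ε ^ 2 / (‖gM w f x‖ ^ 2 + ε ^ 2) ^ 2)) (ar w) :=
    int_cut hC hw hK (hk.mul (continuous_const.div
      (((hgM.norm.pow 2).add continuous_const).pow 2) fun x =>
        show (‖gM w f x‖ ^ 2 + ε ^ 2) ^ 2 ≠ 0 by positivity)) fun x hx => by simp [h0 x hx]
  simp only
  rw [← integral_biUnion_finset crit (fun p hp => (hU p hp).measurableSet) hdis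
    (fun p _ => hi.integrableOn), integral_add_compl hO.measurableSet hi]

theorem l1B (hC : Calc) (hG : Graph) : L1B := by
  refine ⟨1, zero_le_one, fun w hw f crit T hm φ hφ T' hT hφ0 => ?_⟩
  have hK := hm.cpt
  have z1 : ∀ x, T < f x → φ (f x) = 0 := fun x hx => hφ0 _ (hT.trans hx).le
  have z2 : ∀ x, T < f x → deriv φ (f x) = 0 := fun x hx => by
    have : φ =ᶠ[𝓝 (f x)] fun _ => 0 :=
      (lt_mem_nhds (hT.trans hx)).mono fun s hs => hφ0 s hs.le
    rw [this.deriv_eq, deriv_const]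
  have hw2 : ContDiff ℝ 2 w := hw.smooth.of_le two_le
  have hf2 : ContDiff ℝ 2 f := hm.smooth.of_le two_le
  have hg := smooth_gM hw.smooth hm.smooth
  have hX : ContDiff ℝ ∞ (XX w f) := contDiff_cr (smooth_grad hw.smooth) (smooth_grad hm.smooth)
  have c1 : Continuous fun x => φ (f x) := hφ.continuous.comp hf2.continuous
  have c2 : Continuous fun x => deriv φ (f x) :=
    (hφ.continuous_deriv le_rfl).comp hf2.continuous
  have c3 : Continuous fun x => φ (f x) * KK w x := c1.mul (continuous_KK hw2)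
  have c4 : Continuous fun x => 2 * φ (f x) * detM w f x :=
    (continuous_const.mul c1).mul (continuous_detM hw2 hf2)
  have c5 : ∀ e : ℝ, Continuous fun x => ‖gM w f x‖ ^ 2 + e := fun e =>
    (hg.continuous.norm.pow 2).add continuous_const
  have t1 : Tendsto (fun ε : ℝ => ∫ x, φ (f x) * KK w x
      * (‖gM w f x‖ ^ 2 / (‖gM w f x‖ ^ 2 + ε ^ 2)) ∂(ar w)) (𝓝[>] 0)
      (𝓝 (∫ x, φ (f x) * KK w x ∂(ar w))) := by
    refine tendsto_integral_filter_of_dominated_convergence (fun x => |φ (f x) * KK w x|)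
      (eventually_mem_nhdsWithin.mono fun ε (hε : 0 < ε) => (c3.mul ((hg.continuous.norm.pow 2).div
        (c5 _) fun x => by positivity)).aestronglyMeasurable)
      (eventually_mem_nhdsWithin.mono fun ε (hε : 0 < ε) => Eventually.of_forall fun x => ?_)
      (int_cut hC hw hK c3.abs fun x hx => by simp [z1 x hx]) ?_
    · rw [norm_mul, Real.norm_eq_abs]
      refine mul_le_of_le_one_right (abs_nonneg _) ?_
      rw [Real.norm_of_nonneg (by positivity), div_le_one (by positivity)]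
      nlinarith
    · filter_upwards [ae_zero hw, compl_mem_ae_iff.2 (ar_finite_null crit.finite_toSet)]
        with x h1 h2
      rcases le_or_gt T (f x) with h | h'
      · simp [hφ0 _ (hT.le.trans h)]
      have h3 : ‖gM w f x‖ ^ 2 + 0 ^ 2 ≠ 0 := by
        have : gM w f x ≠ 0 := fun h => h2 ((hm.mem x).2 ⟨h1, h', h⟩)
        simpa using this
      have h4 : Tendsto (fun ε : ℝ => φ (f x) * KK w x
          * (‖gM w f x‖ ^ 2 / (‖gM w f x‖ ^ 2 + ε ^ 2))) (𝓝 0) (𝓝 (φ (f x) * KK w x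
          * (‖gM w f x‖ ^ 2 / (‖gM w f x‖ ^ 2 + 0 ^ 2)))) :=
        (tendsto_const_nhds.div ((tendsto_id.pow 2).const_add _) h3).const_mul _
      rw [zero_pow two_ne_zero, add_zero] at h3
      rw [zero_pow two_ne_zero, add_zero, div_self h3, mul_one] at h4
      exact h4.mono_left nhdsWithin_le_nhds
  have t2 := conc_allB hC hG hw hm c4 hT fun x hx => by simp [hφ0 _ hx.le]
  have e1 : ∑ p ∈ crit, 2 * φ (f p) * detM w f p * (Real.pi / |detM w f p|)
      = 2 * Real.pi * ∑ p ∈ crit, φ (f p) * ind w f p := by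
    rw [Finset.mul_sum]
    refine Finset.sum_congr rfl fun p hp => ?_
    have h0 := hm.nondeg p hp
    rcases lt_or_gt_of_ne h0 with h | h
    · rw [ind, Real.sign_of_neg h, abs_of_neg h]; field_simp
    · rw [ind, Real.sign_of_pos h, abs_of_pos h]; field_simp
  rw [e1] at t2
  refine le_of_tendsto (t1.sub t2).abs (eventually_mem_nhdsWithin.mono fun ε (hε : 0 < ε) => ?_)
  have he : 0 < ε ^ 2 := by positivity
  have q0 : ∀ x, ‖gM w f x‖ ^ 2 + ε ^ 2 ≠ 0 := fun x => by positivity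
  have s := stokesVB hC hw hf2.continuous hK
    (U := fun y => (φ (f y) / (‖gM w f y‖ ^ 2 + ε ^ 2)) • gM w f y)
    (((hφ.comp (hm.smooth.of_le one_le)).div (((hg.of_le one_le).norm_sq ℝ).add contDiff_const)
      q0).smul (hg.of_le one_le)) (hX.of_le two_le) fun x hx => by simp [z1 x hx]
  have i1 := int_cut hC hw hK (c3.mul ((hg.continuous.norm.pow 2).div (c5 _) q0))
    fun x hx => by simp [z1 x hx]
  have i2 := int_cut hC hw hK (c4.mul ((continuous_const (y := ε ^ 2)).div ((c5 _).pow 2)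
    fun x => pow_ne_zero 2 (q0 x))) fun x hx => by simp [z1 x hx]
  have i3 := int_cut hC hw hK (c2.mul ((Continuous.inner (𝕜 := ℝ)
    ((continuous_hM hw2 hf2).clm_apply hX.continuous) hX.continuous).div (c5 _) q0))
    fun x hx => by simp [z2 x hx]
  rw [integral_congr_ae ((ae_zero hw).mono fun x hx => brV_key hw hx hm.smooth hφ he)] at s
  have s1 := integral_sub (i1.sub i2) i3
  have s2 := integral_sub i1 i2
  simp only [Pi.mul_apply, Pi.div_apply, Pi.pow_apply, Pi.sub_apply] at s1 s2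
  rw [s1, s2, sub_eq_zero] at s
  rw [s, one_mul, ← Real.norm_eq_abs]
  refine norm_integral_le_of_norm_le (int_cut hC hw hK (c2.abs.mul (continuous_GG hw2 hf2))
    fun x hx => by simp [z2 x hx]) ((ae_zero hw).mono fun x hx => ?_)
  rw [norm_mul, Real.norm_eq_abs, norm_div, Real.norm_of_nonneg (r := _ + _) (by positivity)]
  refine mul_le_mul_of_nonneg_left ?_ (abs_nonneg _)
  rw [div_le_iff₀ (by positivity)]
  calc ‖⟪hM w f x (XX w f x), XX w f x⟫‖ ≤ ‖hM w f x‖ * ‖XX w f x‖ * ‖XX w f x‖ :=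
        (norm_inner_le_norm _ _).trans (by gcongr; exact (hM w f x).le_opNorm _)
    _ = ‖hM w f x‖ * ‖gM w f x‖ ^ 2 := by rw [← norm_XX hw hx]; ring
    _ ≤ _ := by
        have := norm_hM_le (f := f) hw hx
        have := GG_nonneg (w := w) (f := f) (x := x)
        gcongr
        linarith

end Vale.Agent.P218VG
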