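import Vale.Agent.P218VG.Graph

/-! The Euler characteristic of a sublevel set is bounded below. -/

open Set Filter Topology
open scoped RealInnerProductSpace

namespace Vale.Agent.P218VG

open Vale.Agent.P218UA Vale.Agent.P218UL Vale.Agent.P218UE Vale.Agent.P218UY

section top
variable {X : Type} [TopologicalSpace X] {g : X → ℝ} {a b a' b' T η : ℝ} {Cr : Finset X} {p : X}

/-- the component of the larger strip which contains a given set -/
def big (g : X → ℝ) (a b : ℝ) (e : Set X) : Set X := ⋃ x ∈ e, connectedComponentIn (g ⁻¹' Ioo a b) x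

lemma big_eq (h : Ioo a b ⊆ Ioo a' b') {x : X} (hx : g x ∈ Ioo a b) :
    big g a' b' (connectedComponentIn (g ⁻¹' Ioo a b) x) =
      connectedComponentIn (g ⁻¹' Ioo a' b') x :=
  Subset.antisymm (iUnion₂_subset fun _ hy => (connectedComponentIn_eq
    (connectedComponentIn_mono x (preimage_mono h) hy)).ge)
    (subset_biUnion_of_mem (u := connectedComponentIn (g ⁻¹' Ioo a' b'))
      (mem_connectedComponentIn hx))

lemma sub_big (h : Ioo a b ⊆ Ioo a' b') {S : Set (Set X)} (hS : S ⊆ cs g a' b')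
    (h1 : ∀ v ∈ S, ∃ x ∈ v, g x ∈ Ioo a b) : S ⊆ big g a' b' '' cs g a b := fun v hv =>
  let ⟨x, hx, hx'⟩ := h1 v hv
  ⟨_, ⟨x, hx', rfl⟩, (big_eq h hx').trans (cs_eq (hS hv) hx).symm⟩

lemma card_le (h : Ioo a b ⊆ Ioo a' b') (hf : (cs g a b).Finite) {S : Set (Set X)}
    (hS : S ⊆ cs g a' b') (h1 : ∀ v ∈ S, ∃ x ∈ v, g x ∈ Ioo a b) : S.ncard ≤ (cs g a b).ncard :=
  (ncard_le_ncard (sub_big h hS h1) (hf.image _)).trans (ncard_image_le hf)

lemma card_lt (h : Ioo a b ⊆ Ioo a' b') (hf : (cs g a b).Finite)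
    (h1 : ∀ v ∈ cs g a' b', ∃ x ∈ v, g x ∈ Ioo a b) {x₁ x₂ : X}
    (m₁ : x₁ ∈ connectedComponentIn (g ⁻¹' Ioo a' b') p)
    (m₂ : x₂ ∈ connectedComponentIn (g ⁻¹' Ioo a' b') p) (h₁ : g x₁ ∈ Ioo a b) (h₂ : g x₂ ∈ Ioo a b)
    (hn : x₂ ∉ connectedComponentIn (g ⁻¹' Ioo a b) x₁) :
    (cs g a' b').ncard < (cs g a b).ncard := by
  refine (ncard_le_ncard (sub_big h subset_rfl h1) (hf.image _)).trans_lt
    ((ncard_image_le hf).lt_of_ne fun e => hn ?_)
  rw [injOn_of_ncard_image_eq e hf ⟨x₁, h₁, rfl⟩ ⟨x₂, h₂, rfl⟩ (by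
    rw [big_eq h h₁, big_eq h h₂, ← connectedComponentIn_eq m₁, ← connectedComponentIn_eq m₂])]
  exact mem_connectedComponentIn h₂

/-- one of the two thin half strips is separated -/
def Sp (g : X → ℝ) (p : X) (η : ℝ) : Prop := ∃ H : Set ℝ,
  (H = Ioo (g p) (g p + η) ∨ H = Ioo (g p - η) (g p)) ∧
  ∃ x₁ ∈ connectedComponentIn (g ⁻¹' Ioo (g p - η) (g p + η)) p,
  ∃ x₂ ∈ connectedComponentIn (g ⁻¹' Ioo (g p - η) (g p + η)) p,
    g x₁ ∈ H ∧ g x₂ ∈ H ∧ x₂ ∉ connectedComponentIn (g ⁻¹' H) x₁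

/-- the local structure of a Morse function below the level `T` -/
structure Mo (g : X → ℝ) (T : ℝ) (Cr : Finset X) (i : X → ℝ) : Prop where
  cont : Continuous g
  cpt : IsCompact {x | g x ≤ T}
  inj : InjOn g Cr
  reg : ∀ x, g x < T → x ∉ Cr → x ∈ closure {z | g x < g z} ∧ x ∈ closure {z | g z < g x}
  crit : ∀ x ∈ Cr, i x = 1 ∧ (x ∈ closure {z | g x < g z} ∨ x ∈ closure {z | g z < g x}) ∨
    i x = -1 ∧ x ∈ closure {z | g x < g z} ∧ x ∈ closure {z | g z < g x} ∧ ∀ᶠ η in 𝓝[>] 0, Sp g x η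

variable [LocallyConnectedSpace X] {i : X → ℝ} (h : Mo g T Cr i)
include h

lemma Mo.fin (hb : b ≤ T) : (cs g a b).Finite := cs_fin h.cont h.cpt hb Cr.finite_toSet h.reg

lemma Mo.top (hb : b ≤ T) {v : Set X} (hv : v ∈ cs g a b) (h2 : a' < b)
    (hc : ∀ q ∈ Cr, q ∈ v → q ∈ closure {z | g q < g z}) : ∃ x ∈ v, g x ∈ Ioo a' b := by
  obtain ⟨x, hx, hx'⟩ := reach_top h.cont h.cpt hb hv (fun x hx => (em (x ∈ Cr)).elim
    (fun k => hc x k hx) fun k => (h.reg x ((cs_sub hv hx).2.trans_le hb) k).1) h2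
  exact ⟨x, hx, hx', (cs_sub hv hx).2⟩

lemma Mo.bot (hb : b ≤ T) {v : Set X} (hv : v ∈ cs g a b) (h2 : a < b')
    (hc : ∀ q ∈ Cr, q ∈ v → q ∈ closure {z | g z < g q}) : ∃ x ∈ v, g x ∈ Ioo a b' := by
  obtain ⟨x, hx, hx'⟩ := reach_bot h.cont h.cpt hb hv (fun x hx => (em (x ∈ Cr)).elim
    (fun k => hc x k hx) fun k => (h.reg x ((cs_sub hv hx).2.trans_le hb) k).2) h2
  exact ⟨x, hx, (cs_sub hv hx).1, hx'⟩

lemma Mo.slab_reg (hb : b ≤ T) (hη : 0 < η) (hab : a + η ≤ b) (hc : ∀ q ∈ Cr, g q ∉ Ioo a b) :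
    2 * (cs g a b).ncard ≤ (cs g a (a + η)).ncard + (cs g (b - η) b).ncard := by
  have h1 := card_le (Ioo_subset_Ioo_right hab) (h.fin (hab.trans hb)) subset_rfl fun v hv =>
    h.bot hb hv (by linarith) fun q k k' => absurd (cs_sub hv k') (hc q k)
  have h2 := card_le (Ioo_subset_Ioo_left (by linarith : a ≤ b - η)) (h.fin hb) subset_rfl
    fun v hv => h.top hb hv (by linarith) fun q k k' => absurd (cs_sub hv k') (hc q k)
  omega

lemma Mo.slab_crit (hp : p ∈ Cr) (hb : g p + η ≤ T) (hη : 0 < η)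
    (hc : ∀ q ∈ Cr, g q ∈ Ioo (g p - η) (g p + η) → q = p) (hs : i p = -1 → Sp g p η) :
    (2 * (cs g (g p - η) (g p + η)).ncard : ℝ) ≤
      (cs g (g p - η) (g p)).ncard + (cs g (g p) (g p + η)).ncard + i p := by
  have s1 : Ioo (g p - η) (g p) ⊆ Ioo (g p - η) (g p + η) := Ioo_subset_Ioo_right (by linarith)
  have s2 : Ioo (g p) (g p + η) ⊆ Ioo (g p - η) (g p + η) := Ioo_subset_Ioo_left (by linarith)
  have f1 : (cs g (g p - η) (g p)).Finite := h.fin (by linarith)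
  have f2 : (cs g (g p) (g p + η)).Finite := h.fin hb
  have b1 := fun v (hv : v ∈ cs g (g p - η) (g p + η))
      (k : p ∈ v → p ∈ closure {z | g z < g p}) => h.bot hb hv (sub_lt_self _ hη) fun q k1 k2 => by
    obtain rfl := hc q k1 (cs_sub hv k2); exact k k2
  have b2 := fun v (hv : v ∈ cs g (g p - η) (g p + η))
      (k : p ∈ v → p ∈ closure {z | g p < g z}) =>
    h.top hb hv (lt_add_of_pos_right _ hη) fun q k1 k2 => by
      obtain rfl := hc q k1 (cs_sub hv k2); exact k k2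
  have n0 : ∀ v ∈ cs g (g p - η) (g p + η) \
      {connectedComponentIn (g ⁻¹' Ioo (g p - η) (g p + η)) p}, p ∉ v :=
    fun v hv k => hv.2 (cs_eq hv.1 k)
  have n1 := ncard_sdiff_singleton_add_one (show connectedComponentIn _ p ∈ cs g (g p - η) (g p + η)
    from ⟨p, ⟨by linarith, by linarith⟩, rfl⟩) (h.fin hb)
  rcases h.crit p hp with ⟨e, k | k⟩ | ⟨e, k1, k2, -⟩
  · have c1 := card_le s1 f1 sdiff_subset fun v hv => b1 v hv.1 fun k' => absurd k' (n0 v hv)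
    have c2 := card_le s2 f2 subset_rfl fun v hv => b2 v hv fun _ => k
    rw [e]
    exact_mod_cast by omega
  · have c1 := card_le s1 f1 subset_rfl fun v hv => b1 v hv fun _ => k
    have c2 := card_le s2 f2 sdiff_subset fun v hv => b2 v hv.1 fun k' => absurd k' (n0 v hv)
    rw [e]
    exact_mod_cast by omega
  · have c1 := card_le s1 f1 subset_rfl fun v hv => b1 v hv fun _ => k2
    have c2 := card_le s2 f2 subset_rfl fun v hv => b2 v hv fun _ => k1
    rw [e, ← sub_eq_add_neg, le_sub_iff_add_le]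
    obtain ⟨_, rfl | rfl, x₁, m₁, x₂, m₂, a1, a2, a3⟩ := hs e
    · have := card_lt s2 f2 (fun v hv => b2 v hv fun _ => k1) m₁ m₂ a1 a2 a3
      exact_mod_cast by omega
    · have := card_lt s1 f1 (fun v hv => b1 v hv fun _ => k2) m₁ m₂ a1 a2 a3
      exact_mod_cast by omega

omit [LocallyConnectedSpace X] in
lemma Mo.empty (hb : b ≤ T) (hc : ∀ q ∈ Cr, b ≤ g q) : cs g a b = ∅ := by
  refine eq_empty_of_forall_notMem fun v ⟨x, hx, _⟩ => ?_
  obtain ⟨q, -, hm⟩ := h.cpt.exists_isMinOn ⟨x, hx.2.le.trans hb⟩ h.cont.continuousOn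
  have h1 : g q < b := lt_of_le_of_lt (hm (hx.2.le.trans hb)) hx.2
  obtain ⟨z, hz⟩ := closure_nonempty_iff.1 ⟨q, (h.reg q (h1.trans_le hb)
    fun k => (hc q k).not_gt h1).2⟩
  exact (not_le.2 (show g z < g q from hz)) (hm (hz.le.trans (h1.le.trans hb)))

theorem Mo.count {B : ℕ} (hB : H1le X B) {t₁ t₂ : ℝ} (ht : t₁ < t₂) (hT : t₂ ≤ T)
    (hn : ∀ q ∈ Cr, g q ∉ Ioo t₁ t₂) (h0 : ∃ q ∈ Cr, g q ≤ t₁) : ∃ a ≤ t₁,
      (∀ q ∈ Cr, g q ∉ Ioo a t₂) ∧
      -∑ q ∈ Cr.filter (fun q => g q ≤ t₁), i q ≤ 2 * B + 2 * (cs g a t₂).ncard := by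
  set F := Cr.filter fun q => g q ≤ t₁ with hF
  obtain ⟨k, hk⟩ : ∃ k, F.card = k + 1 := Nat.exists_eq_succ_of_ne_zero
    (Finset.card_ne_zero.2 (h0.imp fun q hq => Finset.mem_filter.2 hq))
  let e := (F.equivFinOfCardEq hk).symm
  let P := (Tuple.sort fun j => g (e j)).trans e
  have mP := fun j => Finset.mem_filter.1 (P j).2
  have sP : StrictMono fun j => g (P j) :=
    (Tuple.monotone_sort fun j => g (e j)).strictMono_of_injective
      fun j j' r => P.injective (Subtype.ext (h.inj (mP j).1 (mP j').1 r))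
  let c : ℕ → ℝ := fun j => if r : j < k + 1 then g (P ⟨j, r⟩) else t₂ + (j - (k + 1))
  have c1 : ∀ j : Fin (k + 1), c j = g (P j) := fun j => dif_pos j.2
  have c2 : ∀ j, k + 1 ≤ j → c j = t₂ + (j - (k + 1)) := fun j r => dif_neg (not_lt.2 r)
  have c3 : c (k + 1) = t₂ := by simp [c2]
  have c4 : ∀ j ∈ Finset.range (k + 1), c j < c (j + 1) := fun j r => by
    have r := Finset.mem_range.1 r
    rcases (Nat.succ_le_of_lt r).lt_or_eq with r' | r'
    · exact (c1 ⟨j, r⟩).trans_lt ((sP (by simp)).trans_eq (c1 ⟨j + 1, r'⟩).symm)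
    · rw [show j + 1 = k + 1 from r', c3]
      exact (c1 ⟨j, r⟩).trans_lt ((mP _).2.trans_lt ht)
  obtain ⟨η, ⟨a1, a2, a3⟩, hη⟩ : ∃ η : ℝ, ((∀ j ∈ Finset.range (k + 1), c j + 2 * η < c (j + 1)) ∧
      η < 1 / 2 ∧ ∀ j, i (P j) = -1 → Sp g (P j) η) ∧ 0 < η := by
    have b1 : ∀ᶠ η : ℝ in 𝓝 0, ∀ j ∈ Finset.range (k + 1), c j + 2 * η < c (j + 1) :=
      (eventually_all_finset _).2 fun j r => ContinuousAt.eventually_lt
        (continuousAt_const.add (continuousAt_const.mul continuousAt_id)) continuousAt_const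
        (by simpa using c4 j r)
    have b2 : ∀ᶠ η : ℝ in 𝓝 0, η < 1 / 2 := gt_mem_nhds (by norm_num)
    refine (Eventually.and (f := 𝓝[>] (0 : ℝ)) (.and (nhdsWithin_le_nhds b1)
      (.and (nhdsWithin_le_nhds b2) (eventually_all.2 fun j => ?_))) self_mem_nhdsWithin).exists
    rcases h.crit _ (mP j).1 with r | r
    · exact .of_forall fun _ r' => by linarith [r.1]
    · exact r.2.2.2.mono fun _ r' _ => r'
  have gap : ∀ j, c j + 2 * η ≤ c (j + 1) := fun j => by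
    rcases lt_or_ge j (k + 1) with r | r
    · exact (a1 j (Finset.mem_range.2 r)).le
    · rw [c2 j r, c2 _ (by omega)]
      push_cast
      linarith
  have gap' : ∀ {j j'}, j < j' → c j + 2 * η ≤ c j' := fun r => (gap _).trans
    (monotone_nat_of_le_succ (fun j => by linarith [gap j]) r)
  have cT : ∀ j ≤ k + 1, c j ≤ t₂ := fun j r => by
    rcases r.lt_or_eq with r | rfl
    · linarith [gap' r]
    · exact c3.le
  have cv : ∀ q ∈ Cr, g q < t₂ → ∃ j : Fin (k + 1), q = P j := fun q r r' =>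
    ⟨P.symm ⟨q, Finset.mem_filter.2 ⟨r, not_lt.1 fun r'' => hn q r ⟨r'', r'⟩⟩⟩, by simp⟩
  have nr : ∀ j ≤ k, ∀ q ∈ Cr, g q ∉ Ioo (c j) (c (j + 1)) := fun j r q r1 r2 => by
    obtain ⟨j', rfl⟩ := cv q r1 (r2.2.trans_le (cT _ (by omega)))
    rw [← c1] at r2
    rcases lt_trichotomy j'.1 j with s | s | s
    · linarith [gap' s, r2.1]
    · exact (s ▸ r2.1).false
    · rcases (Nat.succ_le_of_lt s).lt_or_eq with s | s
      · linarith [gap' s, r2.2]
      · exact (s ▸ r2.2).false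
  let lo : ℕ → ℝ := fun n => c (n / 2) - if n % 2 = 0 then η else 0
  have l0 : ∀ j, lo (2 * j) = c j - η := fun j => by simp [lo]
  have l1 : ∀ j, lo (2 * j + 1) = c j := fun j => by
    simp [lo, show (2 * j + 1) / 2 = j by omega]
  have l2 : ∀ n, lo n + η ≤ lo (n + 1) := fun n => by
    obtain ⟨j, rfl | rfl⟩ := n.even_or_odd'
    · rw [l0, l1, sub_add_cancel]
    · rw [l1, show 2 * j + 1 + 1 = 2 * (j + 1) by ring, l0]
      linarith [gap j]
  have l3 : ∀ n ≤ 2 * (k + 1), lo n + η ≤ T := fun n r => by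
    have := monotone_nat_of_le_succ (f := lo) (fun n => by linarith [l2 n]) r
    rw [l0, c3] at this
    linarith
  have G := graph_le hB h.cont h.cpt (lo := lo) (hi := fun n => lo n + η)
    (fun n => lt_add_of_pos_right _ hη) l2 (m := 2 * k + 1) (l3 _ (by omega))
    (fun n r => h.fin (l3 _ (by omega))) fun n r => h.fin (l3 _ (by omega))
  let I : ℕ → ℝ := fun j => if r : j < k + 1 then i (P ⟨j, r⟩) else 0
  have sc : ∀ j ≤ k, (2 * (cs g (lo (2 * j)) (lo (2 * j + 1) + η)).ncard : ℝ) ≤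
      (cs g (lo (2 * j)) (lo (2 * j) + η)).ncard +
        (cs g (lo (2 * j + 1)) (lo (2 * j + 1) + η)).ncard + I j := fun j r => by
    have r' : j < k + 1 := by omega
    have e1 : c j = _ := c1 ⟨j, r'⟩
    rw [l0, l1, sub_add_cancel, show I j = i (P ⟨j, r'⟩) from dif_pos r', e1]
    refine h.slab_crit (mP _).1 (by linarith [gap j, cT (j + 1) (by omega)]) hη (fun q r1 r2 => ?_)
      (a3 _)
    obtain ⟨j', rfl⟩ := cv q r1 (by linarith [gap j, cT (j + 1) (by omega), r2.2])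
    rw [← e1, ← c1] at r2
    rcases lt_trichotomy j'.1 j with s | s | s
    · linarith [gap' s, r2.1]
    · rw [show j' = ⟨j, r'⟩ from Fin.ext s]
    · linarith [gap' s, r2.2]
  have ind : ∀ j ≤ k, 2 * ∑ n ∈ Finset.range (2 * j + 1), ((cs g (lo n) (lo (n + 1) + η)).ncard : ℝ)
      ≤ 2 * ∑ n ∈ Finset.range (2 * j), ((cs g (lo (n + 1)) (lo (n + 1) + η)).ncard : ℝ) +
        (cs g (lo (2 * j + 1)) (lo (2 * j + 1) + η)).ncard + ∑ n ∈ Finset.range (j + 1), I n := by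
    intro j
    induction j with
    | zero =>
      intro r
      have := sc 0 r
      rw [h.empty (a := lo (2 * 0)) (l3 (2 * 0) (by omega)) fun q r1 => by
        rw [l0, sub_add_cancel]
        by_contra r2
        obtain ⟨j', rfl⟩ := cv q r1 ((not_le.1 r2).trans_le (cT 0 (by omega)))
        exact r2 ((c1 0).trans_le (sP.monotone (Fin.zero_le _)))] at this
      simpa using this
    | succ j ih =>
      intro r
      have s1 := sc (j + 1) r
      have s2 : (2 * (cs g (lo (2 * j + 1)) (lo (2 * j + 1 + 1) + η)).ncard : ℝ) ≤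
          (cs g (lo (2 * j + 1)) (lo (2 * j + 1) + η)).ncard +
            (cs g (lo (2 * j + 1 + 1)) (lo (2 * j + 1 + 1) + η)).ncard := by
        rw [l1, show 2 * j + 1 + 1 = 2 * (j + 1) by ring, l0, sub_add_cancel]
        exact_mod_cast h.slab_reg ((cT _ (by omega)).trans hT) hη (by linarith [gap j])
          (nr j (by omega))
      have s3 := ih (by omega)
      rw [show 2 * (j + 1) = 2 * j + 1 + 1 by ring] at s1 ⊢
      simp only [Finset.sum_range_succ] at s3 ⊢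
      linarith
  refine ⟨c k, (c1 (Fin.last k)).trans_le (mP _).2, c3 ▸ nr k le_rfl, ?_⟩
  have e1 : ∑ q ∈ F, i q = ∑ n ∈ Finset.range (k + 1), I n := by
    rw [← Finset.sum_coe_sort, ← P.sum_comp, Finset.sum_range]
    exact Finset.sum_congr rfl fun j _ => by simp only [I, dif_pos j.2]
  have G' := (Nat.cast_le (α := ℝ)).2 G
  have e2 : lo (2 * k + 1 + 1) + η = t₂ := by
    rw [show 2 * k + 1 + 1 = 2 * (k + 1) by ring, l0, sub_add_cancel, c3]
  push_cast at G'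
  rw [Finset.sum_range_succ, Finset.sum_range_succ _ (2 * k + 1), e2] at G'
  have := ind k le_rfl
  rw [l1] at G' this
  linarith [Nat.cast_nonneg (α := ℝ) (cs g (c k) (c k + η)).ncard]

end top

variable {w f : E3 → ℝ}

lemma clos_of_jet {X : Type*} [TopologicalSpace X] {g : X → ℝ} {F : ℝ × ℝ → ℝ} {F' Q} {x : X}
    {e : OpenPartialHomeomorph X (ℝ × ℝ)} (hx : x ∈ e.source) (h0 : e x = 0)
    (hF : ∀ z ∈ e.source, F (e z) = g z) (h : Jet F F' Q) {v : ℝ × ℝ} (hv : ‖v‖ = 1)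
    (hQ : 0 < Q v v) : x ∈ closure {z | g x < g z} := by
  have h1 : Tendsto (fun t : ℝ => t • v) (𝓝[≠] 0) (𝓝 (e x)) :=
    (Continuous.tendsto' (by fun_prop) _ _ (by simp [h0])).mono_left nhdsWithin_le_nhds
  have h2 : ∃ᶠ p in 𝓝 (e x), F 0 < F p :=
    h1.frequently (Eventually.frequently (f := 𝓝[≠] (0 : ℝ))
      (eventually_nhdsWithin_iff.2 (h.axis hv hQ)))
  refine mem_closure_iff_frequently.2 ((frequently_transfer hx h2).mono fun z hz => ?_)
  have := hz.2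
  rwa [← h0, hF x hx, hF z hz.1] at this

lemma crit_dirs (hw : IsSurf w) (hf : ContDiff ℝ 2 f) (x : {y | w y = 0}) (hx : gM w f x = 0)
    (hd : detM w f x ≠ 0) : 0 < detM w f x ∧ (x ∈ closure {z | rs w f x < rs w f z} ∨
      x ∈ closure {z | rs w f z < rs w f x}) ∨ detM w f x < 0 ∧
      x ∈ closure {z | rs w f x < rs w f z} ∧ x ∈ closure {z | rs w f z < rs w f x} := by
  obtain ⟨e₁, e₂, h, h0, hle⟩ :=
    exists_eig (norm_nu hw x.2) (hM_symm (surf2 hw x) hf.contDiffAt)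
  obtain ⟨e, F, F', Q, a1, a2, a3, a4, a5⟩ := crit_chart hw hf x hx h
  have z0 : e x = 0 := by simp [a2]
  have u : 0 < ⟪e₁, hM w f x e₁⟫ → x ∈ closure {z | rs w f x < rs w f z} := fun k =>
    clos_of_jet a1 z0 a3 a4 (v := (1, 0)) (by simp) (by simpa [a5, real_inner_comm] using k)
  have d : ⟪e₂, hM w f x e₂⟫ < 0 → x ∈ closure {z | rs w f z < rs w f x} := fun k => by
    simpa using clos_of_jet (g := -rs w f) a1 z0 (fun z hz => congrArg Neg.neg (a3 z hz)) a4.neg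
      (v := (0, 1)) (by simp) (by simpa [a5, real_inner_comm] using k)
  have hdet : detM w f x = ⟪e₁, hM w f x e₁⟫ * ⟪e₂, hM w f x e₂⟫ := by
    rw [detM, h.d2_eq, h0, zero_mul, sub_zero]
  rw [hdet] at hd ⊢
  rcases (right_ne_zero_of_mul hd).lt_or_gt with k2 | k2
  · rcases (left_ne_zero_of_mul hd).lt_or_gt with k1 | k1
    · exact .inl ⟨mul_pos_of_neg_of_neg k1 k2, .inr (d k2)⟩
    · exact .inr ⟨mul_neg_of_pos_of_neg k1 k2, u k1, d k2⟩
  · exact .inl ⟨mul_pos (k2.trans_le hle) k2, .inl (u (k2.trans_le hle))⟩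

theorem l2G (hP : Pants) : L2G := by
  classical
  intro B w hw hB f crit T hM t₁ t₂ ht hT hn
  have hf : ContDiff ℝ 2 f := hM.smooth.of_le two_le
  have : LocallyConnectedSpace {y | w y = 0} := locConn_of_charts (P := ℝ × ℝ) fun x => by
    by_cases hx : gM w f x = 0
    · obtain ⟨e₁, e₂, h⟩ := exists_fr (norm_nu hw x.2)
      obtain ⟨e, -, -, -, a, -⟩ := crit_chart hw hf x hx h
      exact ⟨e, a⟩
    · obtain ⟨e, a, -⟩ := reg_chart hw hf x hx
      exact ⟨e, a⟩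
  set Cr := crit.subtype (· ∈ {y | w y = 0}) with hCr
  have mC : ∀ y, y ∈ Cr ↔ y.1 ∈ crit := fun y => Finset.mem_subtype
  have c0 : Continuous (rs w f) := hf.continuous.comp continuous_subtype_val
  have h : Mo (rs w f) T Cr fun x => ind w f x := by
    refine ⟨c0, ?_, fun x hx y hy e => Subtype.ext (hM.inj ((mC x).1 hx) ((mC y).1 hy) e),
      fun x h1 h2 => ?_, fun x hx => ?_⟩
    · rw [Subtype.isCompact_iff]
      convert hM.cpt using 1
      ext y
      exact ⟨by rintro ⟨z, hz, rfl⟩; exact ⟨z.2, hz⟩, fun k => ⟨⟨y, k.1⟩, k.2, rfl⟩⟩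
    · obtain ⟨e, a, b⟩ := reg_chart hw hf x fun k => h2 ((mC x).2 ((hM.mem _).2 ⟨x.2, h1, k⟩))
      exact ⟨(reg_lin a (ContinuousLinearMap.fst ℝ ℝ ℝ) (v := (1, 0)) one_pos b).1, by
        simpa using (reg_lin (g := -rs w f) a (-ContinuousLinearMap.fst ℝ ℝ ℝ) (v := (-1, 0))
          (by simp) fun z => congrArg Neg.neg (b z)).1⟩
    · have h1 := (mC x).1 hx
      refine (crit_dirs hw hf x ((hM.mem _).1 h1).2.2 (hM.nondeg _ h1)).imp
        (fun k => ⟨Real.sign_of_pos k.1, k.2⟩) fun k => ⟨Real.sign_of_neg k.1, k.2.1, k.2.2, ?_⟩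
      obtain ⟨η, h2, h3⟩ := hP w f crit T hw hM x h1 k.1
      exact mem_of_superset (Ioc_mem_nhdsGT h2) h3
  have e0 : ∑ p ∈ crit.filter (fun p => f p ≤ t₁), ind w f p =
      ∑ q ∈ Cr.filter (fun q => rs w f q ≤ t₁), ind w f q := by
    rw [Finset.sum_filter, Finset.sum_filter, hCr]
    exact (Finset.sum_subtype_of_mem (fun p => if f p ≤ t₁ then ind w f p else 0)
      fun x hx => ((hM.mem x).1 hx).1).symm
  rw [e0]
  by_cases h0 : ∃ q ∈ Cr, rs w f q ≤ t₁
  swap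
  · refine ⟨0, Fin.elim0, fun i => i.elim0, fun i => i.elim0, ?_⟩
    rw [Finset.filter_eq_empty_iff.2 fun q h1 h2 => h0 ⟨q, h1, h2⟩]
    simp
  obtain ⟨a, a1, a2, a3⟩ := h.count hB ht hT (fun q hq => hn _ ((mC q).1 hq)) h0
  have fin : (cs (rs w f) a t₂).Finite := h.fin hT
  let E := (fin.toFinset.equivFinOfCardEq (ncard_eq_toFinset_card _ fin).symm).symm
  have mE := fun j => fin.mem_toFinset.1 (E j).2
  refine ⟨_, fun j => Subtype.val '' (E j).1 ∩ strip w f t₁ t₂, fun j j' r => ?_, fun j => ?_, a3⟩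
  · refine Disjoint.mono inter_subset_left inter_subset_left
      ((disjoint_image_iff Subtype.val_injective).2 (disjoint_left.2 fun y h1 h2 =>
        r (E.injective (Subtype.ext (cs_uniq (mE j) (mE j') h1 h2)))))
  · have hv := mE j
    beta_reduce
    generalize (E j).1 = v at hv ⊢
    refine ⟨?_, ⟨Subtype.val '' closure v,
      (isClosed_zero hw).isClosedMap_subtype_val _ isClosed_closure, ?_⟩, fun t r => ?_⟩
    · obtain ⟨O, hO, rfl⟩ := isOpen_induced_iff.1 (cs_open c0 hv)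
      refine ⟨O, hO, Subset.antisymm ?_ fun y hy => ⟨⟨⟨y, hy.2.1⟩, hy.1, rfl⟩, hy.2⟩⟩
      rintro _ ⟨⟨y, b1, rfl⟩, b2⟩
      exact ⟨b1, b2⟩
    · refine Subset.antisymm (inter_subset_inter_left _ (image_mono subset_closure)) ?_
      rintro _ ⟨⟨y, b1, rfl⟩, b2⟩
      exact ⟨⟨y, cs_clos c0 hv b1 ⟨a1.trans_lt b2.2.1, b2.2.2⟩, rfl⟩, b2⟩
    · obtain ⟨y, b1, b2⟩ := reach_all c0 h.cpt hT hv (fun y hy => h.reg y
        ((cs_sub hv hy).2.trans_le hT) fun k => a2 y k (cs_sub hv hy)) ⟨a1.trans_lt r.1, r.2⟩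
      exact ⟨y, ⟨⟨y, b1, rfl⟩, y.2, r.1.trans_eq b2.symm, b2.trans_lt r.2⟩, b2⟩

end Vale.Agent.P218VG
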