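import Vale.Agent.P218UJ.L3
import Vale.Agent.P218VG.Props

/-! `L3B`: the localised form of `L3`. -/

open MeasureTheory Set Filter Topology Metric
open scoped ENNReal NNReal RealInnerProductSpace ContDiff

namespace Vale.Agent.P218VG

open Vale.Agent.P218UA Vale.Agent.P218UL Vale.Agent.P218UJ
open Vale.Agent.P218UE (gM strip Piece)
open Vale.Agent.P218.H63 (inner_gradient inner_gradient' contDiff_gradient)

lemma io_piece (hC : Calc) {w f φ : E3 → ℝ} (hw : IsSurf w) {t₁ t₂ : ℝ}
    (hM : IsCompact {x | w x = 0 ∧ f x ≤ t₂}) {V : Set E3} (hV : Piece w f t₁ t₂ V)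
    (hφ : Continuous φ) : IntegrableOn φ V (ar w) := by
  have := hC.locFin w hw
  obtain ⟨O, -, rfl⟩ := hV.opn
  exact (hφ.continuousOn.integrableOn_compact hM).mono_set fun x hx => ⟨hx.2.1, hx.2.2.2.le⟩

/-- the integral inequality given by Stokes' theorem -/
lemma stokes_ineqB (hC : Calc) {w f : E3 → ℝ} (hw : IsSurf w) {t₁ t₂ : ℝ}
    (hM : IsCompact {x | w x = 0 ∧ f x ≤ t₂})
    (hf : ContDiff ℝ 2 f) (hr : ∀ x ∈ strip w f t₁ t₂, gM w f x ≠ 0) {V : Set E3}
    (hV : Piece w f t₁ t₂ V) {θ : ℝ → ℝ} (hθ : ContDiff ℝ 1 θ) (hθ0 : ∀ t, 0 ≤ θ t) {a b : ℝ}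
    (hab : Icc a b ⊆ Ioo t₁ t₂) (hθs : ∀ t, t ∉ Icc a b → θ t = 0) (z : E3) {ε : ℝ}
    (hε : 0 < ε) :
    ∫ x in V, θ (f x) * (‖XX w f x‖ * ε ^ 2 / √(‖x - z‖ ^ 2 + ε ^ 2) ^ 3) ∂(ar w)
      ≤ ∫ x in V, θ (f x) * P218UE.GG w f x ∂(ar w) := by
  have := hC.locFin w hw
  have hVm := measurableSet_piece hw hf.continuous hV
  obtain ⟨O, hO, hVO⟩ := hV.opn
  obtain ⟨Z, hZ, hVZ⟩ := hV.cls
  have hX := contDiff_XX hw.c2 hf
  have hst : ∀ x, w x = 0 → f x ∈ Icc a b → x ∈ strip w f t₁ t₂ := fun x h1 h2 =>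
    ⟨h1, (hab h2).1, (hab h2).2⟩
  have hX0 : ∀ x ∈ strip w f t₁ t₂, XX w f x ≠ 0 := fun x hx => by
    rw [← norm_ne_zero_iff, normSq_XX (hw.unit hx.1), norm_ne_zero_iff]
    exact hr x hx
  have hK : IsCompact ({x | w x = 0} ∩ (Z ∩ f ⁻¹' Icc a b)) :=
    hM.of_isClosed_subset (hw.closed.inter (hZ.inter (isClosed_Icc.preimage hf.continuous)))
      fun x hx => ⟨hx.1, (hab hx.2.2).2.le⟩
  obtain ⟨χ, hχ, hχc, hχs, hχ1, -⟩ := exists_cut hK
    (hO.inter (isOpen_ne_fun hX.continuous continuous_const)) (fun x hx => by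
      have h1 := hst x hx.1 hx.2.2
      have h2 : x ∈ V := hVZ ▸ ⟨hx.2.1, h1⟩
      exact ⟨(hVO ▸ h2).1, hX0 x h1⟩)
  have hB : ContDiff ℝ 1 fun x => χ x * gg (XX w f) z ε x := by
    refine contDiff_iff_contDiffAt.2 fun x => ?_
    by_cases hx : x ∈ tsupport χ
    · exact (hχ.of_le (by simp)).contDiffAt.mul (contDiffAt_gg hX (hχs hx).2 hε)
    · refine (contDiffAt_const (c := 0)).congr_of_eventuallyEq ?_
      filter_upwards [notMem_tsupport_iff_eventuallyEq.1 hx] with y hy
      simp [hy]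
  have hT : ContDiff ℝ 1 fun x => θ (f x) := hθ.comp (hf.of_le (by norm_num))
  have hA : ContDiff ℝ 1 fun x => θ (f x) * (χ x * gg (XX w f) z ε x) := hT.mul hB
  have hS := stokes hC hw hf hA (hχc.mul_right.mul_left)
  have hρ : ∀ x : E3, 0 < √(‖x - z‖ ^ 2 + ε ^ 2) := fun x => Real.sqrt_pos.2 (by positivity)
  have i1 : IntegrableOn (fun x => θ (f x) *
      (‖XX w f x‖ * ε ^ 2 / √(‖x - z‖ ^ 2 + ε ^ 2) ^ 3)) V (ar w) :=
    io_piece hC hw hM hV (hT.continuous.mul ((hX.continuous.norm.mul continuous_const).div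
      (by fun_prop) fun x => (pow_pos (hρ x) 3).ne'))
  have i2 : IntegrableOn (fun x => θ (f x) * P218UE.GG w f x) V (ar w) :=
    io_piece hC hw hM hV (hT.continuous.mul (continuous_GG hw.c2 hf))
  rw [← sub_nonpos, ← integral_sub i1 i2, ← integral_indicator hVm,
    ← hS]
  have hAc : HasCompactSupport fun x => θ (f x) * (χ x * gg (XX w f) z ε x) :=
    hχc.mul_right.mul_left
  have hDc : HasCompactSupport fun x =>
      fderiv ℝ (fun x => θ (f x) * (χ x * gg (XX w f) z ε x)) x (XX w f x) :=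
    (hAc.fderiv ℝ).mono fun x hx h => hx (by
      simp only [h, zero_apply])
  refine integral_mono_ae ((integrable_indicator_iff hVm).2 (i1.sub i2))
    (((hA.continuous_fderiv (by norm_num)).clm_apply hX.continuous).integrable_of_hasCompactSupport
      hDc) ?_
  filter_upwards [hw.ae] with x hx
  have hd : fderiv ℝ (fun x => θ (f x) * (χ x * gg (XX w f) z ε x)) x (XX w f x)
      = θ (f x) * fderiv ℝ (fun x => χ x * gg (XX w f) z ε x) x (XX w f x) := by
    have h1 : fderiv ℝ (fun x => θ (f x)) x (XX w f x) = 0 := by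
      have h2 := ((hθ.differentiable (by norm_num) (f x)).hasDerivAt.comp_hasFDerivAt x
        (hf.differentiable (by norm_num) x).hasFDerivAt).fderiv
      have h3 : fderiv ℝ f x (XX w f x) = 0 := by
        rw [← inner_gradient]; exact inner_cr_right _ _
      change fderiv ℝ (θ ∘ f) x (XX w f x) = 0
      rw [h2]; simp [h3]
    rw [fderiv_fun_mul (hT.differentiable (by norm_num) x) (hB.differentiable (by norm_num) x)]
    simp [h1]
  rw [hd]
  by_cases h1 : f x ∈ Icc a b
  swap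
  · rw [hθs _ h1, zero_mul]
    refine indicator_apply_le' (fun _ => ?_) fun _ => le_rfl
    rw [hθs _ h1]; simp
  have h2 := hst x hx h1
  by_cases h3 : x ∈ V
  · rw [indicator_of_mem h3, ← mul_sub]
    refine mul_le_mul_of_nonneg_left ?_ (hθ0 _)
    have h4 : (fun x => χ x * gg (XX w f) z ε x) =ᶠ[𝓝 x] gg (XX w f) z ε := by
      filter_upwards [hχ1 x ⟨hx, (hVZ ▸ h3).1, h1⟩] with y hy
      rw [hy, one_mul]
    rw [h4.fderiv_eq]
    exact fderiv_gg_ge hX (hX0 x h2) hε (norm_DX_le hw hf hx _)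
  · rw [indicator_of_notMem h3]
    have h4 : x ∉ tsupport χ := fun h => h3 (hVO ▸ ⟨(hχs h).1, h2⟩)
    have h5 : (fun x => χ x * gg (XX w f) z ε x) =ᶠ[𝓝 x] fun _ => 0 := by
      filter_upwards [notMem_tsupport_iff_eventuallyEq.1 h4] with y hy
      simp [hy]
    rw [h5.fderiv_eq]
    simp

/-- the lower bound at one level -/
lemma one_levelB (hC : Calc) {w f : E3 → ℝ} (hw : IsSurf w) {t₁ t₂ : ℝ}
    (hM : IsCompact {x | w x = 0 ∧ f x ≤ t₂})
    (hf : ContDiff ℝ 2 f) (hr : ∀ x ∈ strip w f t₁ t₂, gM w f x ≠ 0) {V : Set E3}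
    (hV : Piece w f t₁ t₂ V) {s : ℝ} (hs : s ∈ Ioo t₁ t₂) :
    ∀ᶠ η in 𝓝[>] (0 : ℝ), η / 128
      ≤ ∫ x in V ∩ f ⁻¹' closedBall s η, P218UE.GG w f x ∂(ar w) := by
  have := hC.locFin w hw
  have hVm := measurableSet_piece hw hf.continuous hV
  obtain ⟨z, hzV, hz⟩ := hV.onto s hs
  obtain ⟨O, hO, hVO⟩ := hV.opn
  have hzS : z ∈ strip w f t₁ t₂ := (hVO ▸ hzV).2
  have hX := contDiff_XX hw.c2 hf
  set q := ‖gM w f z‖ with hq
  have hq0 : 0 < q := norm_pos_iff.2 (hr z hzS)
  have hXz : ‖XX w f z‖ = q := normSq_XX (hw.unit hzS.1)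
  have e1 : ∀ᶠ y in 𝓝 z, q / 2 < ‖XX w f y‖ :=
    hX.continuous.norm.continuousAt.eventually (lt_mem_nhds (show q / 2 < ‖XX w f z‖ by linarith))
  obtain ⟨δ, hδ, hb⟩ := Metric.eventually_nhds_iff.1
    ((ev_level hw hf hzS.1 (hr z hzS)).and (e1.and (hO.mem_nhds (hVO ▸ hzV).1)))
  have e2 : Tendsto (fun η : ℝ => η / q / 4) (𝓝[>] 0) (𝓝[>] 0) := by
    refine tendsto_nhdsWithin_iff.2 ⟨?_, ?_⟩
    · have : Tendsto (fun η : ℝ => η / q / 4) (𝓝 0) (𝓝 (0 / q / 4)) :=
        Continuous.tendsto (by fun_prop) 0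
      simpa using this.mono_left nhdsWithin_le_nhds
    · filter_upwards [self_mem_nhdsWithin] with η hη
      have : 0 < η := hη
      exact mem_Ioi.2 (by positivity)
  have e3 : 0 < min (s - t₁) (t₂ - s) := lt_min (by linarith [hs.1]) (by linarith [hs.2])
  filter_upwards [e2.eventually (low_dens hw hzS.1), e2.eventually (Ioo_mem_nhdsGT hδ),
    Ioo_mem_nhdsGT e3] with η hlow hηδ hη
  have hη0 := hη.1
  have hη1 : η < s - t₁ := hη.2.trans_le (min_le_left _ _)
  have hη2 : η < t₂ - s := hη.2.trans_le (min_le_right _ _)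
  let θ : ContDiffBump s := ⟨η / 2, η, by linarith, by linarith⟩
  have hε : 0 < η / q := by positivity
  have hθs : ∀ t, t ∉ closedBall s η → θ t = 0 := fun t ht =>
    θ.zero_of_le_dist (le_of_lt (not_le.1 ht))
  have hsub : Icc (s - η) (s + η) ⊆ Ioo t₁ t₂ := Icc_subset_Ioo (by linarith) (by linarith)
  have h1 := stokes_ineqB hC hw hM hf hr hV (θ := θ) θ.contDiff (fun t => θ.nonneg) hsub
    (fun t ht => hθs t (by rwa [Real.closedBall_eq_Icc])) z hε
  set ε := η / q with hεd
  have hT : Continuous fun x => θ (f x) := θ.continuous.comp hf.continuous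
  have hρ : ∀ x : E3, 0 < √(‖x - z‖ ^ 2 + ε ^ 2) := fun x => Real.sqrt_pos.2 (by positivity)
  have i1 : IntegrableOn (fun x => θ (f x) *
      (‖XX w f x‖ * ε ^ 2 / √(‖x - z‖ ^ 2 + ε ^ 2) ^ 3)) V (ar w) :=
    io_piece hC hw hM hV (hT.mul ((hX.continuous.norm.mul continuous_const).div
      (by fun_prop) fun x => (pow_pos (hρ x) 3).ne'))
  have i2 : IntegrableOn (fun x => θ (f x) * P218UE.GG w f x) V (ar w) :=
    io_piece hC hw hM hV (hT.mul (continuous_GG hw.c2 hf))
  have i3 : IntegrableOn (P218UE.GG w f) V (ar w) := io_piece hC hw hM hV (continuous_GG hw.c2 hf)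
  have hm : MeasurableSet (V ∩ f ⁻¹' closedBall s η) :=
    hVm.inter (isClosed_closedBall.preimage hf.continuous).measurableSet
  refine le_trans ?_ (h1.trans ?_)
  · have h2 : ε ^ 2 / 32 ≤ (ar w).real (ball z (ε / 4)) := by
      rw [Measure.real, ← ENNReal.ofReal_le_iff_le_toReal measure_ball_lt_top.ne]
      convert hlow using 2
      ring
    have h3 : η / 128 = ε ^ 2 / 32 * (q / (4 * ε)) := by rw [hεd]; field_simp; norm_num
    rw [h3]
    refine (mul_le_mul_of_nonneg_right h2 (by positivity)).trans ?_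
    rw [← smul_eq_mul, ← setIntegral_const, ← integral_indicator measurableSet_ball,
      ← integral_indicator hVm]
    refine integral_mono_ae ((integrable_indicator_iff measurableSet_ball).2
      (integrableOn_const measure_ball_lt_top.ne)) ((integrable_indicator_iff hVm).2 i1) ?_
    filter_upwards [hw.ae] with x hx
    refine indicator_apply_le' (fun hxb => ?_) fun _ => indicator_nonneg (fun y _ =>
      mul_nonneg θ.nonneg (by positivity)) x
    rw [mem_ball_iff_norm] at hxb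
    obtain ⟨g1, g2, g3⟩ := hb (y := x) (by rw [dist_eq_norm]; exact hxb.trans hηδ.2)
    have g4 : |f x - s| ≤ η / 2 := by
      have g5 := g1 hx
      rw [hz] at g5
      have g6 : q * ε = η := by rw [hεd]; field_simp
      nlinarith
    have g5 := abs_le.1 g4
    have hxV : x ∈ V := hVO ▸ ⟨g3, hx, by linarith, by linarith⟩
    rw [indicator_of_mem hxV, θ.one_of_mem_closedBall (by rwa [mem_closedBall, Real.dist_eq]),
      one_mul, div_le_div_iff₀ (by positivity) (pow_pos (hρ x) 3)]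
    have g6 : √(‖x - z‖ ^ 2 + ε ^ 2) ≤ 5 / 4 * ε :=
      Real.sqrt_le_iff.2 ⟨by positivity, by nlinarith [norm_nonneg (x - z)]⟩
    have g7 : √(‖x - z‖ ^ 2 + ε ^ 2) ^ 3 ≤ (5 / 4 * ε) ^ 3 := pow_le_pow_left₀ (hρ x).le g6 3
    have g8 : 0 < ε ^ 3 := by positivity
    nlinarith
  · rw [← integral_indicator hVm, ← integral_indicator hm]
    refine integral_mono ((integrable_indicator_iff hVm).2 i2)
      ((integrable_indicator_iff hm).2 (i3.mono_set inter_subset_left)) fun x => ?_
    refine indicator_apply_le' (fun hxV => ?_) fun _ => indicator_nonneg (fun y _ =>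
      GG_nonneg w f y) x
    by_cases h2 : f x ∈ closedBall s η
    · rw [indicator_of_mem (show x ∈ V ∩ f ⁻¹' closedBall s η from ⟨hxV, h2⟩)]
      exact mul_le_of_le_one_left (GG_nonneg w f x) θ.le_one
    · rw [hθs _ h2, zero_mul]
      exact indicator_nonneg (fun y _ => GG_nonneg w f y) x

/-- **L3B** -/
theorem l3B (hC : Calc) : L3B := by
  refine ⟨1 / 256, by norm_num, fun w hw f hf t₁ t₂ ht hM hr V hV θ hθ hθ0 => ?_⟩
  have hf2 : ContDiff ℝ 2 f := hf.of_le two_le_inf
  have hVm := measurableSet_piece hw hf.continuous hV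
  have hG := continuous_GG hw.c2 hf2
  have hfm : Measurable f := hf.continuous.measurable
  have i3 : IntegrableOn (P218UE.GG w f) V (ar w) := io_piece hC hw hM hV hG
  have hGm : Measurable fun x => ENNReal.ofReal (P218UE.GG w f x) := hG.measurable.ennreal_ofReal
  set lam : Measure ℝ := (((ar w).restrict V).withDensity
    fun x => ENNReal.ofReal (P218UE.GG w f x)).map f with hlam
  have : IsFiniteMeasure lam := by
    have := isFiniteMeasure_withDensity_ofReal i3.2
    infer_instance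
  have h1 : (ENNReal.ofReal (1 / 256) • (volume : Measure ℝ)).restrict (Ioo t₁ t₂) ≤ lam := by
    refine Measure.le_iff.2 fun A hA => ?_
    rw [Measure.restrict_apply hA]
    refine le_trans ?_ (measure_mono (inter_subset_left (t := Ioo t₁ t₂)))
    refine (Besicovitch.vitaliFamily (volume : Measure ℝ)).measure_le_of_frequently_le lam
      (Measure.smul_absolutelyContinuous) _ fun s hs => ?_
    refine (Besicovitch.tendsto_filterAt volume s).frequently (Eventually.frequently ?_)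
    filter_upwards [one_levelB hC hw hM hf2 hr hV hs.2, self_mem_nhdsWithin] with η h1 hη
    have hη0 : 0 < η := hη
    have hm : MeasurableSet (f ⁻¹' closedBall s η) := hfm measurableSet_closedBall
    rw [hlam, Measure.map_apply hfm measurableSet_closedBall, withDensity_apply _ hm,
      Measure.restrict_restrict hm, inter_comm,
      ← ofReal_integral_eq_lintegral_ofReal (i3.mono_set inter_subset_left)
        (Eventually.of_forall (GG_nonneg w f)), Measure.smul_apply, Real.volume_closedBall,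
      smul_eq_mul, ← ENNReal.ofReal_mul (by norm_num)]
    exact ENNReal.ofReal_le_ofReal (by linarith)
  have h2 := lintegral_mono' h1 (le_refl fun t => ENNReal.ofReal (θ t))
  have i4 : IntegrableOn (fun x => θ (f x) * P218UE.GG w f x) V (ar w) :=
    io_piece hC hw hM hV ((hθ.comp hf.continuous).mul hG)
  have h3 : ∀ x, 0 ≤ θ (f x) * P218UE.GG w f x := fun x => mul_nonneg (hθ0 _) (GG_nonneg w f x)
  rw [hlam, lintegral_map hθ.measurable.ennreal_ofReal hfm,
    lintegral_withDensity_eq_lintegral_mul _ hGm (g := fun x => ENNReal.ofReal (θ (f x)))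
      (hθ.measurable.comp hfm).ennreal_ofReal,
    Measure.restrict_smul, lintegral_smul_measure,
    ← ofReal_integral_eq_lintegral_ofReal
      (hθ.continuousOn.integrableOn_Icc.mono_set Ioo_subset_Icc_self) (Eventually.of_forall hθ0),
    smul_eq_mul, ← ENNReal.ofReal_mul (by norm_num)] at h2
  rw [intervalIntegral.integral_of_le ht.le, integral_Ioc_eq_integral_Ioo,
    ← ENNReal.ofReal_le_ofReal_iff (integral_nonneg h3),
    ofReal_integral_eq_lintegral_ofReal i4 (Eventually.of_forall h3)]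
  refine h2.trans (le_of_eq (lintegral_congr fun x => ?_))
  rw [Pi.mul_apply, ← ENNReal.ofReal_mul (GG_nonneg w f x), mul_comm]

end Vale.Agent.P218VG
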