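import Vale.Agent.P218VG.Props

/-! At a saddle of an orientable surface one of the two thin half strips is separated. -/

open Set Filter Topology Metric
open scoped RealInnerProductSpace

namespace Vale.Agent.P218VG

open Vale.Agent.P218UA Vale.Agent.P218UL Vale.Agent.P218UE Vale.Agent.P218UY

section top

/-- the thin upper strip is separated -/
def Up {X : Type*} [TopologicalSpace X] (g : X → ℝ) (p : X) : Prop :=
  ∃ η > 0, ∀ η' ∈ Ioc (0 : ℝ) η,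
    ∃ x₁ ∈ connectedComponentIn (g ⁻¹' Ioo (g p - η') (g p + η')) p,
    ∃ x₂ ∈ connectedComponentIn (g ⁻¹' Ioo (g p - η') (g p + η')) p,
      g x₁ ∈ Ioo (g p) (g p + η') ∧ g x₂ ∈ Ioo (g p) (g p + η') ∧
      x₂ ∉ connectedComponentIn (g ⁻¹' Ioo (g p) (g p + η')) x₁

lemma clos_part {X : Type*} [TopologicalSpace X] {g b : X → ℝ} {p : X} {N L : Set X}
    (hg : Continuous g) (hb : Continuous b) (hN : IsClosed N)
    (h : ∀ z ∈ N, g p ≤ g z → z ≠ p → b z ≠ 0) (hL : closure L ⊆ insert p L) :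
    closure (L ∪ {z | z ∈ N ∧ g p ≤ g z ∧ 0 < b z}) ⊆
      insert p (L ∪ {z | z ∈ N ∧ g p ≤ g z ∧ 0 < b z}) := by
  rw [closure_union]
  refine union_subset (hL.trans (insert_subset_insert subset_union_left)) fun z hz => ?_
  have h1 : z ∈ N ∩ ({z | g p ≤ g z} ∩ {z | 0 ≤ b z}) := closure_minimal
    (fun y hy => mem_inter hy.1 (mem_inter hy.2.1 hy.2.2.le))
    (hN.inter ((isClosed_le continuous_const hg).inter (isClosed_le continuous_const hb))) hz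
  by_cases e : z = p
  · exact Or.inl e
  · exact Or.inr (Or.inr ⟨h1.1, h1.2.1, lt_of_le_of_ne h1.2.2 (h z h1.1 h1.2.1 e).symm⟩)

/-- two disjoint parts of a level set separate the thin upper strip -/
lemma sep {X : Type*} [MetricSpace X] [LocallyConnectedSpace X] {g a : X → ℝ} {p : X}
    (hg : Continuous g) (ha : Continuous a) {K : Set X} (hK : IsCompact K) {δ : ℝ} (hδ : 0 < δ)
    (h1 : ∀ z, |g z - g p| < δ → z ∈ K) {L₁ L₂ : Set X}
    (h0 : ∀ z, g z = g p → z ≠ p → z ∈ L₁ ∨ z ∈ L₂) (hd : Disjoint L₁ L₂)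
    (c1 : closure L₁ ⊆ insert p L₁) (c2 : closure L₂ ⊆ insert p L₂) (a0 : a p = 0)
    (hN : ∀ᶠ z in 𝓝 p, (g p ≤ g z → z ≠ p → a z ≠ 0) ∧ (z ∈ L₁ → 0 < a z) ∧ (z ∈ L₂ → a z < 0))
    (f1 : ∃ᶠ z in 𝓝 p, g p < g z ∧ 0 < a z) (f2 : ∃ᶠ z in 𝓝 p, g p < g z ∧ a z < 0) :
    Up g p := by
  obtain ⟨N, ⟨n1, n2⟩, n3⟩ := (closed_nhds_basis p).mem_iff.1 hN
  have n4 := n3 (mem_of_mem_nhds n1)
  set P₁ := L₁ ∪ {z | z ∈ N ∧ g p ≤ g z ∧ 0 < a z} with hP₁
  set P₂ := L₂ ∪ {z | z ∈ N ∧ g p ≤ g z ∧ 0 < -a z} with hP₂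
  have d1 : closure P₁ ⊆ insert p P₁ := clos_part hg ha n2 (fun z hz => (n3 hz).1) c1
  have d2 : closure P₂ ⊆ insert p P₂ := clos_part hg ha.neg n2
    (fun z hz b1 b2 => neg_ne_zero.2 ((n3 hz).1 b1 b2)) c2
  have p1 : p ∉ P₁ := fun h => h.elim (fun k => (n4.2.1 k).ne' a0) fun k => k.2.2.ne' a0
  have p2 : p ∉ P₂ := fun h => h.elim (fun k => (n4.2.2 k).ne a0)
    fun k => (neg_pos.1 k.2.2).ne a0
  have d3 : Disjoint P₁ P₂ := by
    refine disjoint_left.2 fun z b1 b2 => ?_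
    rcases b1 with b1 | b1 <;> rcases b2 with b2 | b2
    · exact disjoint_left.1 hd b1 b2
    · exact lt_asymm ((n3 b2.1).2.1 b1) (neg_pos.1 b2.2.2)
    · exact lt_asymm ((n3 b1.1).2.2 b2) b1.2.2
    · exact lt_asymm b1.2.2 (neg_pos.1 b2.2.2)
  obtain ⟨A₁, A₂, o1, o2, s1, s2, d4⟩ := separatedNhds_iff_disjoint.2 (completely_normal
    (Disjoint.mono_left d1 (disjoint_insert_left.2 ⟨p2, d3⟩))
    (Disjoint.mono_right d2 (disjoint_insert_right.2 ⟨p1, d3⟩)))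
  have hC : IsCompact ((K ∩ {z | g p ≤ g z}) \ (A₁ ∪ A₂ ∪ interior N)) :=
    (hK.inter_right (isClosed_le continuous_const hg)).diff ((o1.union o2).union isOpen_interior)
  obtain ⟨η, e1, e2⟩ := hC.exists_forall_le' (a := 0) (hg.sub continuous_const).continuousOn
    (f := fun z => g z - g p) fun z hz => sub_pos.2 (lt_of_le_of_ne hz.1.2 fun e => hz.2 (by
      by_cases k : z = p
      · exact Or.inr (k ▸ mem_interior_iff_mem_nhds.2 n1)
      · exact Or.inl ((h0 z e.symm k).imp (fun k => s1 (Or.inl k)) fun k => s2 (Or.inl k))))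
  refine ⟨min η δ, lt_min e1 hδ, fun η' h' => ?_⟩
  have b1 : connectedComponentIn (g ⁻¹' Ioo (g p - η') (g p + η')) p ∈ 𝓝 p :=
    connectedComponentIn_mem_nhds ((isOpen_Ioo.preimage hg).mem_nhds
      ⟨by linarith [h'.1], by linarith [h'.1]⟩)
  obtain ⟨x₁, ⟨u1, u2⟩, u3, u4⟩ := (f1.and_eventually (inter_mem b1 n1)).exists
  obtain ⟨x₂, ⟨v1, v2⟩, v3, v4⟩ := (f2.and_eventually (inter_mem b1 n1)).exists
  have u5 := (connectedComponentIn_subset _ _ u3).2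
  have u6 : x₁ ∈ g ⁻¹' Ioo (g p) (g p + η') := ⟨u1, u5⟩
  refine ⟨x₁, u3, x₂, v3, ⟨u1, u5⟩, ⟨v1, (connectedComponentIn_subset _ _ v3).2⟩, fun h => ?_⟩
  refine disjoint_left.1 d4 (isPreconnected_connectedComponentIn.subset_left_of_subset_union o1 o2
    d4 (fun z hz => ?_) ⟨x₁, mem_connectedComponentIn u6, s1 (Or.inr ⟨u4, u1.le, u2⟩)⟩ h)
    (s2 (Or.inr ⟨v4, v1.le, neg_pos.2 v2⟩))
  obtain ⟨z1, z2⟩ := connectedComponentIn_subset _ _ hz
  have z3 := h'.2.trans (min_le_left _ _)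
  have z4 := h'.2.trans (min_le_right _ _)
  by_contra z5
  refine absurd (e2 z ⟨⟨h1 z (abs_lt.2 ⟨by linarith, by linarith⟩), z1.le⟩, fun k => z5 ?_⟩)
    (not_le.2 (by linarith))
  rcases k with k | k
  · exact k
  · have k := interior_subset k
    rcases ((n3 k).1 z1.le fun e => z1.ne (e ▸ rfl)).lt_or_gt with r | r
    · exact Or.inr (s2 (Or.inr ⟨k, z1.le, neg_pos.2 r⟩))
    · exact Or.inl (s1 (Or.inr ⟨k, z1.le, r⟩))

lemma back_trap {h h' : ℝ → ℝ} {U C : Set ℝ} (hU : IsOpen U) (hC : IsClosed C) (hUC : U ⊆ C)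
    (hh : ∀ t, HasDerivAt h (h' t) t) (h1 : ∀ t ∈ U, 0 < h' t) {t₁ : ℝ}
    (h2 : ∀ t ∈ C, h t ≤ h t₁ → t ∈ U) (h3 : t₁ ∈ U) {t : ℝ} (ht : t ≤ t₁) : t ∈ U := by
  by_contra hc
  obtain ⟨s, hs, hm⟩ := ((isCompact_Icc (a := t) (b := t₁)).diff hU).exists_isGreatest
    ⟨t, left_mem_Icc.2 ht, hc⟩
  have h4 : s < t₁ := lt_of_le_of_ne hs.1.2 fun e => hs.2 (e ▸ h3)
  have h5 : Ioo s t₁ ⊆ U := fun u hu => by
    by_contra h6
    exact absurd (hm ⟨⟨hs.1.1.trans hu.1.le, hu.2.le⟩, h6⟩) (not_le.2 hu.1)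
  have h6 := strictMonoOn_of_deriv_pos (convex_Icc s t₁)
    (fun u _ => (hh u).continuousAt.continuousWithinAt) fun u hu => by
      rw [interior_Icc] at hu
      rw [(hh u).deriv]
      exact h1 u (h5 hu)
  refine hs.2 (h2 s (closure_minimal (h5.trans hUC) hC ?_)
    (h6 (left_mem_Icc.2 h4.le) (right_mem_Icc.2 h4.le) h4).le)
  rw [closure_Ioo h4.ne]
  exact left_mem_Icc.2 h4.le

/-- the branch of the level set of a saddle in the first quadrant is connected -/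
lemma ray {F : ℝ × ℝ → ℝ} {r : ℝ} (h : Shape F r) : ∃ S ⊆ Ioo (-r) r ×ˢ Ioo (-r) r,
    IsPreconnected S ∧ (∀ q ∈ S, F q = F 0 ∧ q ≠ 0) ∧
      ∀ᶠ q in 𝓝 (0 : ℝ × ℝ), F q = F 0 → 0 < q.1 → 0 < q.2 → q ∈ S := by
  have r0 := h.pos
  have m1 : r / 2 ∈ Ioo (-r) r := ⟨by linarith, by linarith⟩
  have m0 : (0 : ℝ) ∈ Ioo (-r) r := ⟨by linarith, r0⟩
  have c1 : ContinuousAt (fun b => F (r / 2, b)) 0 :=
    (h.cont.continuousAt ((isOpen_Ioo.prod isOpen_Ioo).mem_nhds ⟨m1, m0⟩)).comp_of_eq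
      (by fun_prop) rfl
  obtain ⟨s, s0, s1⟩ := nhds_basis_closedBall.mem_iff.1 (inter_mem
    (c1.eventually (lt_mem_nhds (h.up _ m1 (by positivity)))) (isOpen_Ioo.mem_nhds m0))
  have s2 := fun b (hb : b ∈ Icc 0 s) => s1 (show b ∈ closedBall 0 s by
    rw [mem_closedBall_zero_iff, Real.norm_of_nonneg hb.1]; exact hb.2)
  have s3 : Icc 0 (r / 2) ⊆ Ioo (-r) r := fun a ha => ⟨by linarith [ha.1], by linarith [ha.2]⟩
  have s4 : Icc 0 (r / 2) ×ˢ Icc 0 s ⊆ Ioo (-r) r ×ˢ Ioo (-r) r :=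
    prod_mono s3 fun b hb => (s2 b hb).2
  set K := Icc 0 (r / 2) ×ˢ Icc 0 s ∩ F ⁻¹' {F 0} with hK
  have k1 : IsCompact K := (isCompact_Icc.prod isCompact_Icc).of_isClosed_subset
    ((h.cont.mono s4).preimage_isClosed_of_isClosed (isClosed_Icc.prod isClosed_Icc)
      isClosed_singleton) inter_subset_left
  have key : ∀ a a' b, (a, b) ∈ K → (a', b) ∈ K → ¬a < a' := fun a a' b k k' e => by
    have e1 : F (a, b) = F 0 := k.2
    have e2 : F (a', b) = F 0 := k'.2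
    have a0 : 0 ≤ a := k.1.1.1
    by_cases hb : b = 0
    · exact (h.up a' (s4 k'.1).1 (a0.trans_lt e).ne').ne' (hb ▸ e2)
    · have e3 := h.dn b (s4 k.1).2 hb
      rcases a0.eq_or_lt with e4 | e4
      · exact e3.ne (e4 ▸ e1)
      · refine ((h.cvx b (s4 k.1).2).lt_right_of_left_lt m0 (s4 k'.1).1 (z := a) ?_
          (e3.trans_eq e1.symm)).ne (e1.trans e2.symm)
        rw [openSegment_eq_Ioo (e4.trans e)]
        exact ⟨e4, e⟩
  have : CompactSpace K := isCompact_iff_compactSpace.1 k1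
  have c2 : Continuous fun q : K => q.1.2 := by fun_prop
  have k2 := (isPreconnected_Ioc (a := 0) (b := s)).preimage_of_isClosedMap
    (f := fun q : K => q.1.2) (fun ⟨⟨a, b⟩, k⟩ ⟨⟨a', b'⟩, k'⟩ e => by
      obtain rfl : b = b' := e
      obtain rfl := le_antisymm (not_lt.1 (key _ _ _ k' k)) (not_lt.1 (key _ _ _ k k'))
      rfl) c2.isClosedMap fun b hb => by
      have b1 := Ioc_subset_Icc_self hb
      obtain ⟨a, a1, a2⟩ := intermediate_value_Icc (f := fun a => F (a, b)) (a := 0) (b := r / 2)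
        (by positivity) (h.cont.comp (by fun_prop) fun a ha => s4 ⟨ha, b1⟩)
        ⟨(h.dn b (s2 b b1).2 hb.1.ne').le, le_of_lt (s2 b b1).1⟩
      exact ⟨⟨(a, b), ⟨a1, b1⟩, a2⟩, rfl⟩
  refine ⟨_, ?_, k2.image _ continuous_subtype_val.continuousOn, ?_, ?_⟩
  · rintro _ ⟨q, -, rfl⟩
    exact s4 q.2.1
  · rintro _ ⟨q, hq, rfl⟩
    exact ⟨q.2.2, fun e => hq.1.ne' (congrArg Prod.snd e)⟩
  · filter_upwards [prod_mem_nhds (gt_mem_nhds (half_pos r0)) (gt_mem_nhds s0)] with q hq b1 b2 b3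
    exact ⟨⟨q, ⟨⟨b2.le, le_of_lt hq.1⟩, b3.le, le_of_lt hq.2⟩, b1⟩, ⟨b3, le_of_lt hq.2⟩, rfl⟩

end top

variable {w f : E3 → ℝ} {p : {y | w y = 0}} {e₁ e₂ : E3}

lemma grad_neg (f : E3 → ℝ) : gradient (-f) = -gradient f := by
  funext x
  simp [gradient, fderiv_neg]

lemma rot_neg (y : E3) : rot w (-f) y = -rot w f y := by
  rw [rot, rot, grad_neg, Pi.neg_apply, ← neg_one_smul ℝ, cr_smul_right, neg_one_smul]

lemma hM_neg (x : E3) : hM w (-f) x = -hM w f x := by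
  ext1 a
  rw [neg_apply, hM_apply, hM_apply, hs, grad_neg, fderiv_neg, Pi.neg_apply, inner_neg_left,
    neg_smul, neg_apply, hs, hs]
  abel

/-- a saddle which is the only critical point of its level, with a frame of eigenvectors -/
structure Sd (w f : E3 → ℝ) (p : {y | w y = 0}) (e₁ e₂ : E3) : Prop where
  surf : IsSurf w
  c2 : ContDiff ℝ 2 f
  crit : gM w f p = 0
  reg : ∀ y, w y = 0 → f y = f p → y ≠ p → rot w f y ≠ 0
  fr : Fr (gradient w p) e₁ e₂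
  off : ⟪e₁, hM w f p e₂⟫ = 0
  pos : 0 < ⟪e₁, hM w f p e₁⟫
  neg : ⟪e₂, hM w f p e₂⟫ < 0

/-- the regular part of the critical level -/
def lev (w f : E3 → ℝ) (p : E3) : Set E3 := {y | w y = 0 ∧ f y = f p ∧ y ≠ p}

lemma lev_neg (x : E3) : lev w (-f) x = lev w f x := by simp [lev]

namespace Sd

variable (h : Sd w f p e₁ e₂)
include h

lemma turn : Sd w (-f) p e₂ (-e₁) where
  surf := h.surf
  c2 := h.c2.neg
  crit := (rot_eq_zero h.surf p.2).1 (by rw [rot_neg, (rot_eq_zero h.surf p.2).2 h.crit, neg_zero])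
  reg y a b c := by
    rw [rot_neg, neg_ne_zero]
    exact h.reg y a (neg_injective b) c
  fr := h.fr.cr32 ▸ fr_of_unit h.fr.n3 h.fr.n2 h.fr.o32
  off := by
    rw [hM_neg, map_neg, neg_apply, neg_neg,
      ← hM_symm (surf2 h.surf p) h.c2.contDiffAt, real_inner_comm, h.off]
  pos := by simpa [hM_neg] using h.neg
  neg := by simpa [hM_neg] using h.pos

lemma opp : Sd w f p (-e₁) (-e₂) := neg_neg f ▸ h.turn.turn

lemma chart : ∃ (e : OpenPartialHomeomorph {y | w y = 0} (ℝ × ℝ)) (F : ℝ × ℝ → ℝ) (r : ℝ),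
    p ∈ e.source ∧ e p = 0 ∧ (∀ y, e y = (⟪e₁, y.1 - p⟫, ⟪e₂, y.1 - p⟫)) ∧
    (∀ z ∈ e.source, F (e z) = f z) ∧ Shape F r ∧ Ioo (-r) r ×ˢ Ioo (-r) r ⊆ e.target := by
  obtain ⟨e, F, F', Q, a1, a2, a3, a4, a5⟩ := crit_chart h.surf h.c2 p h.crit h.fr
  have z0 : e p = 0 := by simp [a2]
  obtain ⟨r, hr⟩ := a4.shape (by simpa [a5, real_inner_comm] using h.pos)
    (by simpa [a5, real_inner_comm] using h.neg)
  obtain ⟨s, s1, s2, s3⟩ := exists_box (z0 ▸ e.open_target.mem_nhds (e.map_source a1)) hr.pos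
  exact ⟨e, F, s, a1, z0, a2, a3, hr.mono s1 s2, s3⟩

lemma sad : Sad w f p e₁ e₂ := by
  obtain ⟨e, F, r, a1, z0, a2, a3, hr, -⟩ := h.chart
  have hT : e.target ∈ 𝓝 (0 : ℝ × ℝ) := z0 ▸ e.open_target.mem_nhds (e.map_source a1)
  refine ⟨h.fr, h.off, h.pos, h.neg, Two.transfer a1 a3 (fun z => by rw [a2]) (z0 ▸ hr.two hT),
    Two.transfer (F := -F) a1 (fun z hz => congrArg Neg.neg (a3 z hz)) (fun z => by rw [a2])
      (z0 ▸ hr.two' hT), (frequently_transfer a1 (z0 ▸ hr.frequently)).mono fun z hz => ?_⟩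
  have k := hz.2
  rw [a3 z hz.1, a3 p a1, a2] at k
  exact k

lemma ne : ∀ᶠ z in 𝓝 p, f p ≤ f z.1 → z ≠ p → ⟪e₁, z.1 - p⟫ ≠ 0 := by
  obtain ⟨e, F, r, a1, z0, a2, a3, hr, -⟩ := h.chart
  filter_upwards [e.continuousAt a1 (z0 ▸ box_mem hr.pos), e.open_source.mem_nhds a1]
    with z b1 b2 b3 b4 b5
  have b6 : e z = (0, (e z).2) := by rw [a2, b5]
  refine (hr.dn _ b1.2 fun k => b4 (e.injOn b2 a1 ?_)).not_ge ?_
  · rw [b6, k, z0]
    rfl
  · rwa [← b6, a3 z b2, ← z0, a3 p a1]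

lemma fre : ∃ᶠ z in 𝓝 p, f p < f z.1 ∧ 0 < ⟪e₁, z.1 - p⟫ := by
  obtain ⟨e, F, r, a1, z0, a2, a3, hr, -⟩ := h.chart
  have c : Tendsto (fun t : ℝ => (t, (0 : ℝ))) (𝓝[>] 0) (𝓝 (e p)) :=
    (Continuous.tendsto' (f := fun t : ℝ => (t, (0 : ℝ))) (by fun_prop) _ _
      z0.symm).mono_left nhdsWithin_le_nhds
  refine (frequently_transfer a1 (R := fun q => F 0 < F q ∧ 0 < q.1)
    (c.frequently (Eventually.frequently ?_))).mono fun z hz => ?_
  · filter_upwards [Ioo_mem_nhdsGT hr.pos] with t ht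
    exact ⟨hr.up t ⟨by linarith [ht.1, hr.pos], ht.2⟩ ht.1.ne', ht.1⟩
  · have k := hz.2
    rwa [a3 z hz.1, ← z0, a3 p a1, a2] at k

lemma vf1 : ContDiff ℝ 1 (vf w f) := contDiff_vf (h.surf.smooth.of_le two_le) h.c2

lemma orbit {c : ℝ → E3} (hc : ∀ t, HasDerivAt c (vf w f (c t)) t) {s : ℝ} (hs : c s ∈ lev w f p)
    (t : ℝ) : c t ∈ lev w f p := by
  have a1 := const_along (h.surf.smooth.differentiable (by simp)) (fun y => by
    rw [vf, real_inner_smul_right, rot, inner_cr_left, mul_zero]) hc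
  have a2 := const_along (h.c2.differentiable two_ne_zero) (fun y => by
    rw [vf, real_inner_smul_right, rot, inner_cr_right, mul_zero]) hc
  refine ⟨(a1 t).trans ((a1 s).symm.trans hs.1), (a2 t).trans ((a2 s).symm.trans hs.2.1),
    fun e => hs.2.2 ?_⟩
  have v0 : vf w f p = 0 := by rw [vf, (rot_eq_zero h.surf p.2).2 h.crit, smul_zero]
  exact congrFun (unique_global h.vf1 (g := fun _ => p.1) hc
    (fun s => v0 ▸ hasDerivAt_const s p.1) e) s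

lemma box {y : E3} (hy : y ∈ lev w f p) : ∃ d : ℝ → E3, (∀ t, HasDerivAt d (vf w f (d t)) t) ∧
    y ∈ range d ∧ ∀ᶠ z in 𝓝 y, z ∈ lev w f p → z ∈ range d := by
  obtain ⟨d, hd, h1⟩ := flow_box h.surf h.c2 (h.reg y hy.1 hy.2.1 hy.2.2)
  exact ⟨d, hd, (h1.self_of_nhds rfl rfl).imp fun _ a => a.2, h1.mono fun z a b =>
    (a (b.1.trans hy.1.symm) (b.2.1.trans hy.2.1.symm)).imp fun _ a => a.2⟩

lemma loc {y : E3} (hy : y ∈ lev w f p) : ∀ᶠ z in 𝓝 y, z ∈ lev w f p →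
    connectedComponentIn (lev w f p) y = connectedComponentIn (lev w f p) z := by
  obtain ⟨d, hd, ⟨s, rfl⟩, h1⟩ := h.box hy
  exact h1.mono fun z a b => connectedComponentIn_eq ((isPreconnected_range
    (continuous_iff_continuousAt.2 fun t => (hd t).continuousAt)).subset_connectedComponentIn
      (mem_range_self s) (range_subset_iff.2 (h.orbit hd hy)) (a b))

lemma same {y z : E3} (hy : y ∈ lev w f p) (hz : z ∈ lev w f p)
    (e : connectedComponentIn (lev w f p) y = connectedComponentIn (lev w f p) z) :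
    ∃ c : ℝ → E3, (∀ t, HasDerivAt c (vf w f (c t)) t) ∧ y ∈ range c ∧ z ∈ range c := by
  refine isPreconnected_connectedComponentIn.induction₂'
    (fun y z => ∃ c : ℝ → E3, (∀ t, HasDerivAt c (vf w f (c t)) t) ∧ y ∈ range c ∧ z ∈ range c)
    (fun x hx => ?_) ?_ (mem_connectedComponentIn hy) (e ▸ mem_connectedComponentIn hz)
  · obtain ⟨d, hd, h1, h2⟩ := h.box (connectedComponentIn_subset _ _ hx)
    filter_upwards [nhdsWithin_le_nhds h2, self_mem_nhdsWithin] with u a b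
    have k := a (connectedComponentIn_subset _ _ b)
    exact ⟨⟨d, hd, h1, k⟩, d, hd, k, h1⟩
  · rintro x _ _ - - - ⟨c, hc, a1, t, rfl⟩ ⟨d, hd, ⟨s, a2⟩, u, rfl⟩
    refine ⟨c, hc, a1, u - s + t, ?_⟩
    simpa using congrFun (unique_global h.vf1 (t₀ := 0) (fun r => (hc _).comp_add_const r t)
      (fun r => (hd _).comp_add_const r s) (by simpa using a2.symm)) (u - s)

/-- the branch in the first quadrant lies in one component, and it is a backward end -/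
lemma quad : ∃ k, (∀ᶠ z in 𝓝 p, f z.1 = f p → 0 < ⟪e₁, z.1 - p⟫ → 0 < ⟪e₂, z.1 - p⟫ →
      connectedComponentIn (lev w f p) z.1 = k) ∧
    ∃ z ∈ lev w f p, connectedComponentIn (lev w f p) z = k ∧ ∀ c : ℝ → E3,
      (∀ t, HasDerivAt c (vf w f (c t)) t) → ∀ s, c s = z → ∀ t ≤ s, 0 < ⟪e₁, c t - p⟫ := by
  obtain ⟨e, F, r, a1, z0, a2, a3, hr, a4⟩ := h.chart
  obtain ⟨S, s1, s2, s3, s4⟩ := ray hr
  have s5 := (s2.image _ (e.continuousOn_symm.mono (s1.trans a4))).image _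
    continuous_subtype_val.continuousOn
  have s6 : Subtype.val '' (e.symm '' S) ⊆ lev w f p := by
    rintro _ ⟨_, ⟨q, hq, rfl⟩, rfl⟩
    have b1 := a4 (s1 hq)
    refine ⟨(e.symm q).2, ?_, fun k => (s3 q hq).2 ?_⟩
    · rw [← a3 _ (e.map_target b1), e.right_inv b1, (s3 q hq).1, ← z0, a3 p a1]
    · rw [← e.right_inv b1, Subtype.ext k, z0]
  have s7 : ∀ᶠ z in 𝓝 p, f z.1 = f p → 0 < ⟪e₁, z.1 - p⟫ → 0 < ⟪e₂, z.1 - p⟫ →
      z.1 ∈ Subtype.val '' (e.symm '' S) := by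
    filter_upwards [e.continuousAt a1 (z0 ▸ s4), e.open_source.mem_nhds a1] with z b1 b2 b3 b4 b5
    exact ⟨z, ⟨e z, b1 (by rw [a3 z b2, b3, a3 p a1]) (by rwa [a2]) (by rwa [a2]),
      e.left_inv b2⟩, rfl⟩
  obtain ⟨R, hR, hb⟩ := nhds_basis_closedBall.mem_iff.1 (inter_mem (inter_mem h.ne h.turn.ne)
    (continuous_subtype_val.continuousAt (h.sad.cone h.surf h.c2 h.crit)))
  have c1 : ContinuousAt (fun y : {y | w y = 0} => ⟪(2 : ℝ) • (e₁ + e₂), y.1 - p⟫) p := by fun_prop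
  obtain ⟨z, ⟨z1, z2, z3⟩, z4, z5, z6⟩ := (h.sad.freq.and_eventually ((c1.eventually
    (gt_mem_nhds (a := R) (by simpa using hR))).and (s7.and (ball_mem_nhds p hR)))).exists
  have z7 := z5 z1 z2 z3
  refine ⟨_, s7.mono fun y a b1 b2 b3 => (connectedComponentIn_eq
    (s5.subset_connectedComponentIn z7 s6 (a b1 b2 b3))).symm, z, s6 z7, rfl,
    fun c hc s hs t ht => ?_⟩
  have m := h.orbit hc (hs ▸ s6 z7)
  have cc : Continuous c := continuous_iff_continuousAt.2 fun t => (hc t).continuousAt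
  have q0 : Continuous fun t => ‖c t - p‖ := by fun_prop
  have q1 : ∀ u : E3, Continuous fun t => ⟪u, c t - p⟫ := fun u => by fun_prop
  have k := fun t (b : ‖c t - p‖ ≤ R) =>
    hb (show (⟨c t, (m t).1⟩ : {y | w y = 0}) ∈ closedBall p R by rwa [← dist_eq_norm] at b)
  have k' := fun t b => (k t b).2 ((m t).1.trans p.2.symm) (m t).2.2
  refine (back_trap (U := {t | ‖c t - p‖ < R ∧ 0 < ⟪e₁, c t - p⟫ ∧ 0 < ⟪e₂, c t - p⟫})
    (C := {t | ‖c t - p‖ ≤ R ∧ 0 ≤ ⟪e₁, c t - p⟫ ∧ 0 ≤ ⟪e₂, c t - p⟫})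
    (h := fun t => ⟪(2 : ℝ) • (e₁ + e₂), c t - p⟫)
    (h' := fun t => ⟪(2 : ℝ) • (e₁ + e₂), vf w f (c t)⟫)
    ((isOpen_lt q0 continuous_const).inter ((isOpen_lt continuous_const (q1 _)).inter
      (isOpen_lt continuous_const (q1 _))))
    ((isClosed_le q0 continuous_const).inter ((isClosed_le continuous_const (q1 _)).inter
      (isClosed_le continuous_const (q1 _))))
    (fun t b => ⟨b.1.le, b.2.1.le, b.2.2.le⟩)
    (fun t => by simpa using (hasDerivAt_const t _).inner ℝ ((hc t).sub_const p.1))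
    (fun t b => ?_) (fun t b b' => ⟨?_, ?_, ?_⟩) ⟨?_, hs ▸ z2, hs ▸ z3⟩ ht).2.1
  · rw [vf, real_inner_smul_left, real_inner_smul_right]
    exact mul_pos two_pos (mul_pos (by positivity) (k' t b.1.le b.2.1.le b.2.2.le).1)
  · rw [hs] at b'
    refine ((k' t b.1 b.2.1 b.2.2).2.trans_eq ?_).trans_lt (b'.trans_lt z4)
    rw [real_inner_smul_left, inner_add_left]
  · exact b.2.1.lt_of_ne ((k t b.1).1.1 (m t).2.1.ge
      fun e => (m t).2.2 (congrArg Subtype.val e)).symm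
  · exact b.2.2.lt_of_ne ((k t b.1).1.2 (neg_le_neg (m t).2.1.le)
      fun e => (m t).2.2 (congrArg Subtype.val e)).symm
  · rw [hs, ← dist_eq_norm]
    exact z6

/-- opposite branches lie in different components -/
lemma pair : ∃ k₁ k₂, k₁ ≠ k₂ ∧ ∀ᶠ z in 𝓝 p, f z.1 = f p →
    (0 < ⟪e₁, z.1 - p⟫ → 0 < ⟪e₂, z.1 - p⟫ → connectedComponentIn (lev w f p) z.1 = k₁) ∧
    (⟪e₁, z.1 - p⟫ < 0 → ⟪e₂, z.1 - p⟫ < 0 → connectedComponentIn (lev w f p) z.1 = k₂) := by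
  obtain ⟨k₁, a1, y, a2, a3, a4⟩ := h.quad
  obtain ⟨k₂, b1, z, b2, b3, b4⟩ := h.opp.quad
  refine ⟨k₁, k₂, fun e => ?_, (a1.and b1).mono fun u hu k => ⟨hu.1 k, fun i j => hu.2 k
    (by rwa [inner_neg_left, neg_pos]) (by rwa [inner_neg_left, neg_pos])⟩⟩
  obtain ⟨c, hc, ⟨s, hs⟩, t, ht⟩ := h.same a2 b2 (a3.trans (e.trans b3.symm))
  have := b4 c hc t ht _ (min_le_right s t)
  rw [inner_neg_left, neg_pos] at this
  exact lt_asymm this (a4 c hc s hs _ (min_le_left s t))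

lemma half [LocallyConnectedSpace {y | w y = 0}] {K : Set {y | w y = 0}} (hK : IsCompact K) {δ : ℝ}
    (hδ : 0 < δ) (h1 : ∀ z : {y | w y = 0}, |f z - f p| < δ → z ∈ K) (J : Set (Set E3))
    (hJ : ∀ᶠ z in 𝓝 p, f z.1 = f p → z ≠ p →
      (connectedComponentIn (lev w f p) z.1 ∈ J ↔ 0 < ⟪e₁, z.1 - p⟫)) : Up (rs w f) p := by
  have c0 : Continuous (rs w f) := h.c2.continuous.comp continuous_subtype_val
  have cl : ∀ J : Set (Set E3), closure {z : {y | w y = 0} | z.1 ∈ lev w f p ∧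
      connectedComponentIn (lev w f p) z.1 ∈ J} ⊆ insert p {z | z.1 ∈ lev w f p ∧
      connectedComponentIn (lev w f p) z.1 ∈ J} := fun J y hy => by
    by_cases e : y = p
    · exact Or.inl e
    have m : y.1 ∈ lev w f p := ⟨y.2, closure_minimal (t := {z | rs w f z = f p})
      (fun z hz => hz.1.2.1) (isClosed_eq c0 continuous_const) hy, fun k => e (Subtype.ext k)⟩
    obtain ⟨z, z1, z2⟩ := mem_closure_iff_nhds.1 hy _
      (continuous_subtype_val.continuousAt (h.loc m))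
    have z3 := z2.2
    rw [← z1 z2.1] at z3
    exact Or.inr ⟨m, z3⟩
  have c1 : Continuous fun z : {y | w y = 0} => ⟪e₁, z.1 - p⟫ := by fun_prop
  refine sep c0 c1 hK hδ h1 (fun z a b => ?_)
    (disjoint_left.2 fun z a b => ?_) (cl J) (cl Jᶜ) (by simp) ?_ h.fre
    (h.opp.fre.mono fun z a => ⟨a.1, by simpa only [inner_neg_left, neg_pos] using a.2⟩)
  · have m : z.1 ∈ lev w f p := ⟨z.2, a, fun k => b (Subtype.ext k)⟩
    exact (em _).imp (fun k => ⟨m, k⟩) fun k => ⟨m, k⟩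
  · exact b.2 a.2
  · filter_upwards [h.ne, hJ] with z a b
    have n := fun (m : z.1 ∈ lev w f p) (k : z = p) => m.2.2 (congrArg Subtype.val k)
    exact ⟨a, fun m => (b m.1.2.1 (n m.1)).1 m.2, fun m => (not_lt.1 fun k =>
      m.2 ((b m.1.2.1 (n m.1)).2 k)).lt_of_ne (a m.1.2.1.ge (n m.1))⟩

theorem either [LocallyConnectedSpace {y | w y = 0}] {K : Set {y | w y = 0}} (hK : IsCompact K)
    {δ : ℝ} (hδ : 0 < δ) (h1 : ∀ z : {y | w y = 0}, |f z - f p| < δ → z ∈ K) :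
    Up (rs w f) p ∨ Up (rs w (-f)) p := by
  obtain ⟨ne, sw, a1, a2⟩ := h.pair
  obtain ⟨nw, se, b1, b2⟩ := h.turn.pair
  simp only [lev_neg, Pi.neg_apply, neg_inj, inner_neg_left, neg_pos, neg_lt_zero] at b2
  have key : ∀ᶠ z in 𝓝 p, f z.1 = f p → z ≠ p →
      0 < ⟪e₁, z.1 - p⟫ ∧ 0 < ⟪e₂, z.1 - p⟫ ∧ connectedComponentIn (lev w f p) z.1 = ne ∨
      ⟪e₁, z.1 - p⟫ < 0 ∧ 0 < ⟪e₂, z.1 - p⟫ ∧ connectedComponentIn (lev w f p) z.1 = nw ∨
      0 < ⟪e₁, z.1 - p⟫ ∧ ⟪e₂, z.1 - p⟫ < 0 ∧ connectedComponentIn (lev w f p) z.1 = se ∨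
      ⟪e₁, z.1 - p⟫ < 0 ∧ ⟪e₂, z.1 - p⟫ < 0 ∧ connectedComponentIn (lev w f p) z.1 = sw := by
    filter_upwards [a2, b2, h.ne, h.turn.ne] with z c1 c2 c3 c4 e n
    rcases (c3 e.ge n).lt_or_gt with i | i <;> rcases (c4 (neg_le_neg e.le) n).lt_or_gt with j | j
    · exact Or.inr (Or.inr (Or.inr ⟨i, j, (c1 e).2 i j⟩))
    · exact Or.inr (Or.inl ⟨i, j, (c2 e).1 j i⟩)
    · exact Or.inr (Or.inr (Or.inl ⟨i, j, (c2 e).2 j i⟩))
    · exact Or.inl ⟨i, j, (c1 e).1 i j⟩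
  by_cases hc : ne = nw ∨ se = sw
  · refine Or.inr (h.turn.half hK hδ (fun z a => h1 z ?_) {ne, nw} (key.mono fun z a e n => ?_))
    · rwa [Pi.neg_apply, Pi.neg_apply, neg_sub_neg, abs_sub_comm] at a
    · rw [lev_neg]
      rcases a (neg_injective e) n with ⟨-, j, k⟩ | ⟨-, j, k⟩ | ⟨-, j, k⟩ | ⟨-, j, k⟩ <;> rw [k]
      · exact iff_of_true (Or.inl rfl) j
      · exact iff_of_true (Or.inr rfl) j
      · exact iff_of_false (by rintro (rfl | rfl) <;> grind) j.not_gt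
      · exact iff_of_false (by rintro (rfl | rfl) <;> grind) j.not_gt
  · refine Or.inl (h.half hK hδ h1 {ne, se} (key.mono fun z a e n => ?_))
    rcases a e n with ⟨j, -, k⟩ | ⟨j, -, k⟩ | ⟨j, -, k⟩ | ⟨j, -, k⟩ <;> rw [k]
    · exact iff_of_true (Or.inl rfl) j
    · exact iff_of_false (by rintro (rfl | rfl) <;> grind) j.not_gt
    · exact iff_of_true (Or.inr rfl) j
    · exact iff_of_false (by rintro (rfl | rfl) <;> grind) j.not_gt

end Sd

theorem pants : Pants := by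
  intro w f crit T hw hM p hp hd
  have hf : ContDiff ℝ 2 f := hM.smooth.of_le two_le
  have : LocallyConnectedSpace {y | w y = 0} := locConn_of_charts (P := ℝ × ℝ) fun x => by
    by_cases hx : gM w f x = 0
    · obtain ⟨e₁, e₂, h⟩ := exists_fr (norm_nu hw x.2)
      obtain ⟨e, -, -, -, a, -⟩ := crit_chart hw hf x hx h
      exact ⟨e, a⟩
    · obtain ⟨e, a, -⟩ := reg_chart hw hf x hx
      exact ⟨e, a⟩
  obtain ⟨-, p1, p2⟩ := (hM.mem p).1 hp
  obtain ⟨e₁, e₂, h, h0, hle⟩ := exists_eig (norm_nu hw p.2) (hM_symm (surf2 hw p) hf.contDiffAt)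
  rw [detM, h.d2_eq, h0, zero_mul, sub_zero] at hd
  have S : Sd w f p e₁ e₂ := ⟨hw, hf, p2, fun y a b c e => c (hM.inj
    ((hM.mem y).2 ⟨a, b.trans_lt p1, (rot_eq_zero hw a).1 e⟩) hp b), h, h0, by nlinarith,
    by nlinarith⟩
  have hK : IsCompact (Subtype.val ⁻¹' {x | w x = 0 ∧ f x ≤ T} : Set {y | w y = 0}) :=
    (isClosed_zero hw).isClosedEmbedding_subtypeVal.isCompact_preimage hM.cpt
  rcases S.either hK (sub_pos.2 p1) (fun z a => ⟨z.2, by linarith [(abs_lt.1 a).2]⟩) with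
    ⟨η, a, b⟩ | ⟨η, a, b⟩
  · exact ⟨η, a, fun η' c => ⟨_, Or.inl rfl, b η' c⟩⟩
  · refine ⟨η, a, fun η' c => ⟨_, Or.inr rfl, ?_⟩⟩
    have e : ∀ s t, rs w (-f) ⁻¹' Ioo s t = rs w f ⁻¹' Ioo (-t) (-s) := fun s t => by
      ext z
      simp only [rs, mem_preimage, mem_Ioo, Pi.neg_apply, neg_lt, lt_neg, and_comm]
    have k := b η' c
    simp only [← mem_preimage (f := rs w (-f)), e] at k
    simp only [rs, Pi.neg_apply, neg_add, neg_sub, neg_neg, ← sub_eq_add_neg, sub_neg_eq_add,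
      add_comm η'] at k
    exact k

end Vale.Agent.P218VG
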