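import Vale.Agent.P218UV.Fin
import Vale.Agent.P218UX.Aff
import Vale.Agent.P218VG.Props

/-! Properly embedded self-shrinkers of finite genus: area ratios, ends, uniqueness. -/

open MeasureTheory Set Filter Topology Metric
open scoped ENNReal NNReal RealInnerProductSpace ContDiff

namespace Vale.Agent.P218VG

open Vale.Agent.P218UA Vale.Agent.P218UX
open Vale.Agent.P218ST (IsSmoothShrinker UniqueModel MainSmooth)
open Vale.Agent.P218GA (HasCylConeEnds)
open Vale.Agent.P218.H63 (lap)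

/-- the first variation formula for a radial vector field -/
lemma cut_gauss {W : E3 → ℝ} (hW : IsShr W) {ρ : ℝ} (hρ : 1 ≤ ρ) :
    ∫ y, cut 0 4 0 ρ 0 y * Real.exp (-‖y‖ ^ 2 / 16) ∂(ar W)
      ≤ 245 * (ar W).real (closedBall 0 5) := by
  have hlf := locFin hW.toIsSurf
  have hρ0 : 0 < ρ := one_pos.trans_le hρ
  set m : ℝ → ℝ := fun s => max (1 - s / ρ ^ 2) 0 with hm
  set E : ℝ → ℝ := fun s => Real.exp (-s / 16) with hE
  have h0 : ∀ s : ℝ, HasDerivAt (fun s => 1 - s / ρ ^ 2) (-(1 / ρ ^ 2)) s :=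
    fun s => ((hasDerivAt_id' s).div_const _).const_sub 1
  have hE' : ∀ s, HasDerivAt E (-(1 / 16) * E s) s := fun s =>
    ((hasDerivAt_neg' s).div_const 16).exp.congr_deriv (by simp only [hE]; ring)
  have h3 : ∀ s, HasDerivAt (fun s => m s ^ 3) (-(3 / ρ ^ 2) * m s ^ 2) s := fun s =>
    ((P218UM.hasDerivAt_max_pow 1 _).comp s (h0 s)).congr_deriv (by push_cast; ring)
  have h2 : ∀ s, HasDerivAt (fun s => m s ^ 2) (-(2 / ρ ^ 2) * m s) s := fun s =>
    ((P218UM.hasDerivAt_max_pow 0 _).comp s (h0 s)).congr_deriv (by push_cast; ring)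
  have hF : ∀ s, HasDerivAt (fun s => -16 * (E s * m s ^ 3))
      (E s * (m s ^ 3 + 48 / ρ ^ 2 * m s ^ 2)) s := fun s =>
    (((hE' s).mul (h3 s)).const_mul _).congr_deriv (by ring)
  have hF1 : ∀ s, HasDerivAt (fun s => E s * (m s ^ 3 + 48 / ρ ^ 2 * m s ^ 2))
      (-(E s * (m s ^ 3 / 16 + 6 / ρ ^ 2 * m s ^ 2 + 96 / ρ ^ 4 * m s))) s := fun s =>
    ((hE' s).mul ((h3 s).add ((h2 s).const_mul _))).congr_deriv (by
      simp only [Pi.add_apply]; ring)
  have hFc : ContDiff ℝ 2 fun s => -16 * (E s * m s ^ 3) := contDiff_const.mul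
    (ContDiff.mul (by fun_prop) (P218UM.contDiff_max_cube.comp
      (f := fun s => 1 - s / ρ ^ 2) (by fun_prop)))
  have hz : ∀ y : E3, y ∉ closedBall (0 : E3) ρ → m (‖y - 0‖ ^ 2) = 0 := fun y hy => by
    rw [mem_closedBall, dist_eq_norm, not_le] at hy
    exact max_eq_right (sub_nonpos.2 ((one_le_div (by positivity)).2
      (pow_le_pow_left₀ hρ0.le hy.le 2)))
  have hK := isCompact_closedBall (0 : E3) ρ
  have hc : HasCompactSupport fun y : E3 => -16 * (E (‖y - 0‖ ^ 2) * m (‖y - 0‖ ^ 2) ^ 3) :=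
    HasCompactSupport.intro hK fun y hy => by rw [hz y hy]; ring
  have hv := firstVar hW.toIsSurf (P218UG.contDiff_grad (hFc.comp (contDiff_nsq 0)))
    ((hc.fderiv ℝ).comp_left (g := (InnerProductSpace.toDual ℝ E3).symm) (map_zero _))
  have hg : Continuous (gradient W) := (P218UG.surf_grad_diff hW.toIsSurf).continuous
  have hr := fun y (hy : W y = 0) => radial hFc hF 0 y (hF1 _) ((hW.eik y hy).self_of_nhds)
  have ha := ae_ar hW.smooth.continuous
  replace hv := sub_eq_zero.2 (((integral_congr_ae (ha.mono fun y hy => (hr y hy).2)).symm.trans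
    hv).trans (integral_congr_ae (ha.mono fun y hy =>
      congrArg₂ (· * ·) (hW.eqn y hy) (hr y hy).1)))
  have hi : ∀ {f : E3 → ℝ}, Continuous f → (∀ y, m (‖y - 0‖ ^ 2) = 0 → f y = 0) →
      Integrable f (ar W) := fun hf h => hf.integrable_of_hasCompactSupport
    (HasCompactSupport.intro hK fun y hy => h y (hz y hy))
  have i1 := (integrable_indicator_iff (μ := ar W) measurableSet_closedBall).2
    (integrableOn_const (C := (245 : ℝ)) (measure_closedBall_lt_top (x := 0) (r := 5)).ne)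
  rw [← integral_sub (hi (by fun_prop) fun y hy => by rw [hy]; ring)
    (hi (by fun_prop) fun y hy => by rw [hy]; ring)] at hv
  refine le_trans (integral_mono_of_nonneg (Eventually.of_forall fun y => mul_nonneg
    (cut_nonneg _ _ _ _ _ _) (Real.exp_pos _).le) (i1.sub (hi ?_ ?_)) (ha.mono fun y hy => ?_))
    ((integral_sub i1 (hi ?_ ?_)).trans ((congrArg (_ - ·) hv).trans ?_)).le
  rotate_left 2
  · have a1 := P218UM.inner_sq_le (hW.eik y hy).self_of_nhds y
    simp only [cut, sub_zero, mul_zero, add_zero, Pi.sub_apply]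
    change m (‖y‖ ^ 2) ^ 3 * E (‖y‖ ^ 2) ≤ _
    have a2 : 0 ≤ m (‖y‖ ^ 2) := le_max_right _ _
    have a3 : m (‖y‖ ^ 2) ≤ 1 := max_le (sub_le_self _ (by positivity)) zero_le_one
    have a4 : 0 < E (‖y‖ ^ 2) := Real.exp_pos _
    have a5 : E (‖y‖ ^ 2) ≤ 1 := Real.exp_le_one_iff.2 (by nlinarith [sq_nonneg ‖y‖])
    have a6 : 48 / ρ ^ 2 ≤ 48 := div_le_self (by norm_num) (one_le_pow₀ hρ)
    generalize m (‖y‖ ^ 2) = a at *
    generalize E (‖y‖ ^ 2) = e at *
    generalize ⟪y, gradient W y⟫ = b at *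
    have a7 : e * (a ^ 3 + 48 / ρ ^ 2 * a ^ 2) ≤ 1 * (1 ^ 3 + 48 * 1 ^ 2) := by gcongr
    have a8 : 0 ≤ e * (48 / ρ ^ 2 * a ^ 2) := by positivity
    have a9 : 0 ≤ e * (a ^ 3 + 48 / ρ ^ 2 * a ^ 2) := by positivity
    have b1 : 0 ≤ e * (12 / ρ ^ 2 * a ^ 2 + 384 / ρ ^ 4 * a) * (‖y‖ ^ 2 - b ^ 2) := by
      have := sub_nonneg.2 a1
      positivity
    have b2 : e * (a ^ 3 + 48 / ρ ^ 2 * a ^ 2) * (5 - ‖y‖ ^ 2 / 4)
        ≤ (closedBall (0 : E3) 5).indicator (fun _ => (245 : ℝ)) y := by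
      by_cases h : y ∈ closedBall (0 : E3) 5
      · rw [indicator_of_mem h]; nlinarith [mul_nonneg a9 (sq_nonneg ‖y‖)]
      · rw [indicator_of_notMem h]
        rw [mem_closedBall_zero_iff, not_le] at h
        exact mul_nonpos_of_nonneg_of_nonpos a9 (by nlinarith)
    have b3 := mul_nonneg a9 (sq_nonneg b)
    ring_nf at *
    linarith
  rotate_left 2
  · rw [sub_zero, integral_indicator_const _ measurableSet_closedBall, smul_eq_mul, mul_comm]
  all_goals first | fun_prop | (intro y hy; rw [hy]; ring)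

lemma gauss_fin {W : E3 → ℝ} (hW : IsShr W) : ∫⁻ y, ENNReal.ofReal (Real.exp (-‖y‖ ^ 2 / 16))
    ∂(ar W) ≤ ENNReal.ofReal (245 * (ar W).real (closedBall 0 5)) := by
  have hlf := locFin hW.toIsSurf
  refine le_of_tendsto' (lint_cut_tendsto (μ := ar W) 0 (le_refl 0) (by fun_prop)
    fun y => (Real.exp_pos _).le) fun n => ?_
  have h1 : (1 : ℝ) ≤ n + 1 := le_add_of_nonneg_left n.cast_nonneg
  refine (ofReal_integral_eq_lintegral_ofReal (((continuous_cut _ _ _ _ _).mul
    (by fun_prop)).integrable_of_hasCompactSupport (HasCompactSupport.intro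
      (isCompact_closedBall 0 (n + 1 + 4 + 1)) fun y hy => by
        rw [Pi.mul_apply, cut_supp (one_pos.trans_le h1) (by norm_num) (by norm_num) hy, zero_mul]))
    (Eventually.of_forall fun y => mul_nonneg (cut_nonneg _ _ _ _ _ _)
      (Real.exp_pos _).le)).ge.trans (ENNReal.ofReal_le_ofReal (cut_gauss hW h1))

/-- **Properly embedded self-shrinkers have bounded area ratios.** -/
theorem shrAR : ShrAR := fun W hW => by
  set G := 245 * (ar W).real (closedBall 0 5) with hG
  have hG0 : 0 ≤ G := by positivity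
  refine ⟨max 1 (4 * Real.exp 1 * G), le_max_left _ _, fun x r hr => ?_⟩
  set s := 2 + r + ‖x‖ with hs
  have h0 := norm_nonneg x
  have hs0 : 0 < s := by positivity
  have h1 : -s ^ 2 ≤ -1 := by nlinarith
  have h2 : (-1 : ℝ) < -1 + r ^ 2 := lt_add_of_pos_right _ (pow_pos hr 2)
  have e := le_self_add.trans (mono_lint (isFlow_sf (b := 0) hW isOpen_Iio ordConnected_Iio
    Subset.rfl) x (h1.trans_lt neg_one_lt_zero) (mem_Iio.2 neg_one_lt_zero) h1 h2)
  rw [show sf W 0 (-1) = W from funext fun y => by rw [sf_neg_one, add_zero], sf_neg_sq hs0.le,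
    ar_aff hs0.ne', lintegral_smul_measure, (emb_tr hs0.ne').lintegral_map, smul_eq_mul,
    ← lintegral_const_mul' _ _ ENNReal.ofReal_ne_top] at e
  refine (meas_le_of_lint (a := 8 * Real.pi * r ^ 2) (B := Real.exp 1 / (2 * Real.pi) * G)
    (by positivity) (fun y hy => Phi_ge hr (-1) hy) (e.trans ?_)).trans
    (ENNReal.ofReal_le_ofReal ?_)
  · rw [ENNReal.ofReal_mul (by positivity)]
    refine le_trans ?_ (mul_le_mul_right (gauss_fin hW) _)
    rw [← lintegral_const_mul' _ _ ENNReal.ofReal_ne_top]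
    refine lintegral_mono fun z => ?_
    rw [← ENNReal.ofReal_mul (sq_nonneg s), ← ENNReal.ofReal_mul (by positivity)]
    refine ENNReal.ofReal_le_ofReal ?_
    have a1 : s ^ 2 / 2 ≤ -1 + r ^ 2 - -s ^ 2 := by nlinarith
    have a2 : -1 + r ^ 2 - -s ^ 2 ≤ 2 * s ^ 2 := by nlinarith
    have a3 : s * ‖z‖ ≤ ‖s • z - x‖ + s := by
      have := norm_sub_norm_le (s • z) x
      rw [norm_smul, Real.norm_of_nonneg hs0.le] at this
      linarith
    have a4 := pow_le_pow_left₀ (by positivity) a3 2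
    rw [Phi, tr_apply, sub_zero, div_mul_eq_mul_div, ← Real.exp_add, ← mul_div_assoc,
      div_le_div_iff₀ (by have : 0 < s ^ 2 / 2 := by positivity
                          have := this.trans_le a1
                          positivity) (by positivity)]
    generalize -1 + r ^ 2 - -s ^ 2 = τ at *
    have a5 : 0 < τ := lt_of_lt_of_le (by positivity) a1
    have a6 : Real.exp (-‖s • z - x‖ ^ 2 / (4 * τ)) ≤ Real.exp (1 + -‖z‖ ^ 2 / 16) := by
      rw [Real.exp_le_exp, div_le_iff₀ (by positivity)]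
      nlinarith [sq_nonneg (‖s • z - x‖ - s), mul_le_mul_of_nonneg_left a2 (sq_nonneg ‖z‖)]
    calc _ ≤ (2 * τ) * Real.exp (1 + -‖z‖ ^ 2 / 16) * (2 * Real.pi) := by gcongr; linarith
      _ = _ := by ring
  · refine le_trans (le_of_eq ?_) (mul_le_mul_of_nonneg_right (le_max_right _ _) (sq_nonneg r))
    field_simp
    ring

/-- the first two derivatives of a function along a curve in its zero set -/
lemma along {f : E3 → ℝ} {g : E3 → E3} {p v : E3} (hf : ContDiff ℝ 2 f) (hg : ContDiffAt ℝ 2 g p)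
    (h0 : ∀ᶠ t : ℝ in 𝓝 0, f (g (p + t • v)) = 0) (h1 : g p = p)
    (h2 : fderiv ℝ g p v = v) : ⟪gradient f p, v⟫ = 0 ∧
      ⟪v, fderiv ℝ (gradient f) p v⟫ = -⟪gradient f p, fderiv ℝ (fderiv ℝ g) p v v⟫ := by
  have hl : ∀ t : ℝ, HasDerivAt (fun t : ℝ => p + t • v) v t := fun t => by
    simpa using ((hasDerivAt_id t).smul_const v).const_add p
  have hc : Tendsto (fun t : ℝ => p + t • v) (𝓝 0) (𝓝 p) :=
    Continuous.tendsto' (by fun_prop) _ _ (by simp)
  have hp : ∀ᶠ t : ℝ in 𝓝 0, ⟪gradient f (g (p + t • v)), fderiv ℝ g (p + t • v) v⟫ = 0 := by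
    filter_upwards [h0.eventually_nhds, hc.eventually (hg.eventually (by simp))] with t ht hgt
    rw [inner_gradient_left]
    exact ((hf.differentiable (by norm_num) _).hasFDerivAt.comp_hasDerivAt t
      ((hgt.differentiableAt (by norm_num)).hasFDerivAt.comp_hasDerivAt t (hl t))).unique
      ((hasDerivAt_const t (0 : ℝ)).congr_of_eventuallyEq ht)
  have e0 : p + (0 : ℝ) • v = p := by simp
  have dG := ((P218UZ.cdAt_gradient (x := p) hf.contDiffAt).differentiableAt
    one_ne_zero).hasFDerivAt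
  have d1 := (hg.differentiableAt (by norm_num)).hasFDerivAt.comp_hasDerivAt_of_eq 0 (hl 0) e0.symm
  have d2 := ((hg.fderiv_right (m := 1) (by norm_num)).differentiableAt
    one_ne_zero).hasFDerivAt.comp_hasDerivAt_of_eq 0 (hl 0) e0.symm
  have e := ((dG.comp_hasDerivAt_of_eq 0 d1 (by simp [h1])).inner ℝ
    (d2.clm_apply (hasDerivAt_const 0 v))).unique
    ((hasDerivAt_const (0 : ℝ) (0 : ℝ)).congr_of_eventuallyEq hp)
  refine ⟨by simpa only [e0, h1, h2] using hp.self_of_nhds, ?_⟩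
  simp only [Function.comp_apply, e0, h1, h2, map_zero, add_zero] at e
  rw [real_inner_comm]
  linarith

/-- a self-shrinker has a signed distance function -/
theorem exists_isShr {S : Set E3} {Φ : E3 → ℝ} (h : IsSmoothShrinker S Φ) :
    ∃ W, IsShr W ∧ {x | W x = 0} = S := by
  obtain ⟨w, h1, h2, h3⟩ := P218UZ.sdm univ isOpen_univ (fun q => SignType.sign (Φ q.2))
    fun p _ => ⟨fun q => Φ q.2, univ, isOpen_univ, trivial,
      (h.smooth.comp contDiff_snd).contDiffOn, fun _ _ => rfl, fun hp e =>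
        h.grad_ne _ ((h.mem_iff _).2 hp) (by
          rw [gradient, show fderiv ℝ Φ p.2 = 0 from e, map_zero])⟩
  rw [univ_prod_univ, contDiffOn_univ] at h1
  have hW : IsSurf (w 0) := ⟨h1.comp (contDiff_const.prodMk contDiff_id), fun x hx =>
    (Continuous.prodMk_right (0 : ℝ)).continuousAt.eventually (h3 0 trivial x hx)⟩
  have hz : ∀ x, w 0 x = 0 ↔ Φ x = 0 := fun x => by
    rw [← sign_eq_zero_iff, h2 0 trivial x, sign_eq_zero_iff]
  refine ⟨w 0, ⟨hW, fun p hp => ?_⟩, Set.ext fun x => (hz x).trans (h.mem_iff x).symm⟩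
  generalize w 0 = W at hW hz hp
  have hn := (hW.eik p hp).self_of_nhds
  have dG := ((P218UZ.cdAt_gradient (x := p) (hW.smooth.contDiffAt.of_le
    (by norm_cast))).differentiableAt one_ne_zero).hasFDerivAt
  have e1 := dG.norm_sq.unique ((hasFDerivAt_const (1 : ℝ) p).congr_of_eventuallyEq
    ((hW.eik p hp).mono fun y hy => by simp [hy]))
  have e2 : ⟪gradient W p, fderiv ℝ (gradient W) p (gradient W p)⟫ = 0 := by
    simpa using congrArg (fun L : E3 →L[ℝ] ℝ => L (gradient W p)) e1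
  have dW := (hW.smooth.differentiable (by simp) p).hasFDerivAt
  have hgv : ∀ v, fderiv ℝ W p v = ⟪gradient W p, v⟫ := fun v => inner_gradient_left.symm
  set n := gradient W p with hnd
  have hnn : ⟪n, n⟫ = 1 := by rw [real_inner_self_eq_norm_sq, hn, one_pow]
  set F : E3 → E3 := fun y => y + (W y - ⟪n, y - p⟫) • n with hF
  have hFc : ContDiff ℝ ∞ F := contDiff_id.add ((hW.smooth.sub
    (contDiff_const.inner ℝ (contDiff_id.sub contDiff_const))).smul contDiff_const)
  have hFp : F p = p := by simp [hF, hp]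
  have hF' : ∀ v, fderiv ℝ F p v = v := fun v => by
    refine (congrArg (fun L : E3 →L[ℝ] E3 => L v) ((hasFDerivAt_id p).add ((dW.sub
      ((hasFDerivAt_const n p).inner ℝ ((hasFDerivAt_id p).sub_const p))).smul_const n)).fderiv).trans ?_
    simp [hgv]
  obtain ⟨g, g1, g2⟩ := P218UZ.exists_smooth_inv rfl (Φ := F) (a₀ := p)
    (Eventually.of_forall fun _ => hFc.contDiffAt) fun a b e => by rwa [hF', hF'] at e
  have gp := g2.self_of_nhds
  rw [hFp] at g1 gp
  have gd := g1.self_of_nhds.1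
  have g3 : ∀ v, fderiv ℝ g p v = v := fun v => by
    have := (HasFDerivAt.comp p (g' := fderiv ℝ g p) (by
      rw [hFp]; exact (gd.differentiableAt (by simp)).hasFDerivAt)
      (hFc.differentiable (by simp) p).hasFDerivAt).unique
      ((hasFDerivAt_id p).congr_of_eventuallyEq g2)
    simpa [hF'] using congrArg (fun L : E3 →L[ℝ] E3 => L v) this
  have g4 : ∀ v, ⟪n, v⟫ = 0 → ∀ᶠ t : ℝ in 𝓝 0, W (g (p + t • v)) = 0 := fun v hv => by
    filter_upwards [(Continuous.tendsto' (f := fun t : ℝ => p + t • v) (by fun_prop) 0 p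
      (by simp)).eventually g1] with t ht
    have := congrArg (fun y => ⟪n, y - p⟫) ht.2
    simp only [hF, add_sub_right_comm, inner_add_right, real_inner_smul_right, hnn, hv,
      sub_self, inner_zero_right] at this
    linarith
  have a1 := fun v hv => along (hW.smooth.of_le (by norm_cast)) (gd.of_le (by norm_cast))
    (g4 v hv) gp (g3 v)
  have a2 := fun v hv => along (h.smooth.of_le (by norm_cast)) (gd.of_le (by norm_cast))
    ((g4 v hv).mono fun t ht => (hz _).1 ht) gp (g3 v)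
  obtain ⟨c, hc⟩ : ∃ c : ℝ, gradient Φ p = c • n := by
    refine ⟨⟪n, gradient Φ p⟫, sub_eq_zero.1 (inner_self_eq_zero (𝕜 := ℝ).1 ?_)⟩
    have b : ⟪n, gradient Φ p - ⟪n, gradient Φ p⟫ • n⟫ = 0 := by
      rw [inner_sub_right, real_inner_smul_right, hnn, mul_one, sub_self]
    rw [inner_sub_left, (a2 _ b).1, real_inner_smul_left, b, mul_zero, sub_zero]
  have hS := (h.mem_iff p).2 ((hz p).1 hp)
  have hc0 : c ≠ 0 := fun e => h.grad_ne p hS (by rw [hc, e, zero_smul])
  obtain ⟨e, he⟩ := P218UZ.exists_frame hn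
  have a3 := h.shrinker p hS
  rw [lap, he.tr] at a3 ⊢
  simp only [fun i => (a2 _ (he.perp i)).2, hc, map_smul, real_inner_smul_left,
    real_inner_smul_right, norm_smul, hn, mul_one, Real.norm_eq_abs, sq_abs, Fin.sum_univ_two,
    real_inner_comm n] at a3
  simp only [fun i => (a1 _ (he.perp i)).2, Fin.sum_univ_two, e2, real_inner_comm n]
  refine mul_left_cancel₀ (pow_ne_zero 3 hc0) ?_
  linear_combination a3

/-- **The ends of a properly embedded self-shrinker of finite genus are cylindrical or conical.** -/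
theorem ends_of_genus (hL : LGBG) (betti : ∀ (N : Type) [TopologicalSpace N] [ChartedSpace E2 N]
    [T2Space N] [CompactSpace N], BettiStmt N) {S : Set E3} {Φ : E3 → ℝ}
    (h : IsSmoothShrinker S Φ) (hg : FiniteGenus S) : HasCylConeEnds S := by
  obtain ⟨W, hW, rfl⟩ := exists_isShr h
  obtain ⟨A, hA, hR⟩ := shrAR W hW
  obtain ⟨N, _, _, _, _, e, he⟩ := hg
  obtain ⟨B, hB⟩ := betti N
  obtain ⟨C, hC⟩ := hL B A
  obtain ⟨D, hD⟩ := P218UV.endsThm W A (max 1 C) hW hA (le_max_left _ _) hR fun z r hr =>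
    (hC W hW.toIsSurf hR (hB _ e he) z r hr).trans (mul_le_mul_of_nonneg_right
      (le_max_right _ _) (add_nonneg zero_le_one (integral_nonneg fun _ => sq_nonneg _)))
  exact P218UZ.formatA W D hW hD

theorem unique_of_genus (hL : LGBG) (betti : ∀ (N : Type) [TopologicalSpace N] [ChartedSpace E2 N]
    [T2Space N] [CompactSpace N], BettiStmt N) (hmain : MainSmooth) {S : Set E3} {Φ : E3 → ℝ}
    (h : IsSmoothShrinker S Φ) (hg : FiniteGenus S) : UniqueModel S :=
  hmain S Φ h (ends_of_genus hL betti h hg)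

end Vale.Agent.P218VG
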