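import Vale.Agent.P218UE.Static
import Vale.Agent.P218VG.Props

/-! The local Gauss-Bonnet estimate for surfaces with bounded first Betti number: assembly. -/

open MeasureTheory Set Filter Topology Metric
open scoped NNReal RealInnerProductSpace ContDiff

namespace Vale.Agent.P218VG

open Vale.Agent.P218UA Vale.Agent.P218UE
open Vale.Agent.P218.H63 (lap hessSq)

variable {w f : E3 → ℝ} {crit : Finset E3}

lemma io_sub (hC : Calc) (hw : IsSurf w) {K S : Set E3} (hK : IsCompact K) (hS : S ⊆ K)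
    {g : E3 → ℝ} (hg : Continuous g) : IntegrableOn g S (ar w) := by
  have := hC.locFin w hw
  exact (hg.continuousOn.integrableOn_compact hK).mono_set hS

lemma int_cut (hC : Calc) (hw : IsSurf w) {T : ℝ} (hK : IsCompact {x | w x = 0 ∧ f x ≤ T})
    {g : E3 → ℝ} (hg : Continuous g) (h0 : ∀ x, T < f x → g x = 0) : Integrable g (ar w) :=
  (io_sub hC hw hK subset_rfl hg).integrable_of_ae_notMem_eq_zero
    ((ae_zero hw).mono fun x hx h => h0 x (not_le.1 fun h' => h ⟨hx, h'⟩))

/-- the weighted count of the critical points below a level -/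
lemma count_ge (hC : Calc) (h2 : L2G) {c : ℝ} (hc : 0 < c) (hw : IsSurf w) {B : ℕ}
    (hB : H1le {x | w x = 0} B) {T : ℝ} (hm : IsMorseB w f crit T)
    {θ : ℝ → ℝ} (hθ : Continuous θ) (hθ0 : ∀ t, 0 ≤ θ t)
    (h3 : ∀ t₁ t₂ : ℝ, t₁ < t₂ → t₂ ≤ T → (∀ x ∈ strip w f t₁ t₂, gM w f x ≠ 0) →
      ∀ V, Piece w f t₁ t₂ V →
      c * ∫ t in t₁..t₂, θ t ≤ ∫ x in V, θ (f x) * GG w f x ∂(ar w)) (n : ℕ) :
    ∀ a b : ℝ, a ≤ b → b ≤ T → (crit.filter fun p => f p ∈ Ioo a b).card ≤ n →
      -∑ p ∈ crit, ((∫ t in a..b, θ t) - ∫ t in a..b, indicator {x | x ≤ f p} θ t) * ind w f p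
        ≤ 2 * B * (∫ t in a..b, θ t)
          + 2 * c⁻¹ * ∫ x in strip w f a b, θ (f x) * GG w f x ∂(ar w) := by
  have hf := hm.smooth.continuous
  have hi : ∀ a b, b ≤ T → IntegrableOn (fun x => θ (f x) * GG w f x) (strip w f a b) (ar w) :=
    fun a b hb => io_sub hC hw hm.cpt (fun x hx => ⟨hx.1, hx.2.2.le.trans hb⟩)
      ((hθ.comp hf).mul (continuous_GG (hw.smooth.of_le two_le) (hm.smooth.of_le two_le)))
  have hpos : ∀ x, 0 ≤ θ (f x) * GG w f x := fun x => mul_nonneg (hθ0 _) GG_nonneg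
  have base : ∀ a b : ℝ, a ≤ b → b ≤ T → (∀ p ∈ crit, f p ∉ Ioo a b) →
      -∑ p ∈ crit, ((∫ t in a..b, θ t) - ∫ t in a..b, indicator {x | x ≤ f p} θ t) * ind w f p
        ≤ 2 * B * (∫ t in a..b, θ t)
          + 2 * c⁻¹ * ∫ x in strip w f a b, θ (f x) * GG w f x ∂(ar w) := by
    intro a b hab hbT h
    have i0 : 0 ≤ ∫ t in a..b, θ t := intervalIntegral.integral_nonneg hab fun t _ => hθ0 t
    have i1 : 0 ≤ ∫ x in strip w f a b, θ (f x) * GG w f x ∂(ar w) := integral_nonneg hpos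
    have e : ∑ p ∈ crit, ((∫ t in a..b, θ t) - ∫ t in a..b, indicator {x | x ≤ f p} θ t)
          * ind w f p
        = (∑ p ∈ crit.filter (fun p => f p ≤ a), ind w f p) * ∫ t in a..b, θ t := by
      rw [Finset.sum_filter, Finset.sum_mul]
      refine Finset.sum_congr rfl fun p hp => ?_
      rw [intervalIntegral.integral_of_le hab, intervalIntegral.integral_of_le hab]
      split_ifs with h1
      · rw [setIntegral_congr_fun (f := indicator {x | x ≤ f p} θ) (g := fun _ => 0)
          measurableSet_Ioc fun t ht => ?_]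
        · simp [mul_comm]
        · exact indicator_of_notMem (s := {x | x ≤ f p}) (not_le.2 (h1.trans_lt ht.1)) _
      · rw [setIntegral_congr_fun (f := indicator {x | x ≤ f p} θ) (g := θ)
          measurableSet_Ioc fun t ht => ?_]
        · simp
        · exact indicator_of_mem (s := {x | x ≤ f p})
            (ht.2.trans (not_lt.1 fun h' => h p hp ⟨not_le.1 h1, h'⟩)) _
    rw [e]
    rcases hab.eq_or_lt with rfl | hab
    · simp only [intervalIntegral.integral_same, mul_zero, zero_add, neg_zero]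
      positivity
    obtain ⟨n, V, hV, hVp, hn⟩ := h2 B w hw hB f crit T hm a b hab hbT h
    have m1 : ∀ i, MeasurableSet (V i) := fun i => by
      obtain ⟨O, hO, e⟩ := (hVp i).opn
      rw [e]
      exact hO.measurableSet.inter (measurableSet_strip hw hf a b)
    have m3 : ∀ i, V i ⊆ strip w f a b := fun i => by
      obtain ⟨O, hO, e⟩ := (hVp i).opn
      rw [e]
      exact inter_subset_right
    have m2 : (⋃ i, V i) ⊆ strip w f a b := iUnion_subset m3
    have k1 := Finset.sum_le_sum fun i (_ : i ∈ Finset.univ) => h3 a b hab hbT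
      (fun x hx h0 => h x ((hm.mem x).2 ⟨hx.1, hx.2.2.trans_le hbT, h0⟩) hx.2) (V i) (hVp i)
    rw [← integral_iUnion_fintype m1 hV fun i => (hi a b hbT).mono_set (m3 i), Finset.sum_const,
      Finset.card_univ, Fintype.card_fin, nsmul_eq_mul] at k1
    have k2 := setIntegral_mono_set (hi a b hbT) (Eventually.of_forall hpos) m2.eventuallyLE
    have k3 : n * ∫ t in a..b, θ t
        ≤ c⁻¹ * ∫ x in strip w f a b, θ (f x) * GG w f x ∂(ar w) := by
      rw [le_inv_mul_iff₀ hc]
      linarith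
    have k4 := mul_le_mul_of_nonneg_right hn i0
    linarith
  induction n with
  | zero =>
    intro a b hab hbT h
    rw [Nat.le_zero, Finset.card_eq_zero, Finset.filter_eq_empty_iff] at h
    exact base a b hab hbT h
  | succ n ih =>
    intro a b hab hbT h
    by_cases h0 : ∀ p ∈ crit, f p ∉ Ioo a b
    · exact base a b hab hbT h0
    push Not at h0
    obtain ⟨q, hq, hqab⟩ := h0
    have sub : ∀ a' b', a ≤ a' → b' ≤ b → f q ∉ Ioo a' b' →
        (crit.filter fun p => f p ∈ Ioo a' b').card ≤ n := fun a' b' h1 h2 h3 => by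
      refine Nat.lt_succ_iff.1 (lt_of_lt_of_le (Finset.card_lt_card ⟨fun p hp => ?_, fun h4 => ?_⟩) h)
      · rw [Finset.mem_filter] at hp ⊢
        exact ⟨hp.1, Ioo_subset_Ioo h1 h2 hp.2⟩
      · exact h3 (Finset.mem_filter.1 (h4 (Finset.mem_filter.2 ⟨hq, hqab⟩))).2
    have hqT := hqab.2.le.trans hbT
    have k1 := ih a (f q) hqab.1.le hqT (sub _ _ le_rfl hqab.2.le fun h => lt_irrefl _ h.2)
    have k2 := ih (f q) b hqab.2.le hbT (sub _ _ hqab.1.le le_rfl fun h => lt_irrefl _ h.1)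
    have k3 : ∫ x in strip w f a (f q), θ (f x) * GG w f x ∂(ar w)
        + ∫ x in strip w f (f q) b, θ (f x) * GG w f x ∂(ar w)
        ≤ ∫ x in strip w f a b, θ (f x) * GG w f x ∂(ar w) := by
      rw [← setIntegral_union (disjoint_left.2 fun x h1 h2 => lt_asymm h1.2.2 h2.2.1)
        (measurableSet_strip hw hf _ _) (hi _ _ hqT) (hi _ _ hbT)]
      refine setIntegral_mono_set (hi a b hbT) (Eventually.of_forall hpos)
        (HasSubset.Subset.eventuallyLE ?_)
      rintro x (h | h)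
      · exact ⟨h.1, h.2.1, h.2.2.trans hqab.2⟩
      · exact ⟨h.1, hqab.1.trans h.2.1, h.2.2⟩
    have k4 := mul_le_mul_of_nonneg_left k3 (inv_pos.2 hc).le
    have k5 : ∑ p ∈ crit, ((∫ t in a..b, θ t) - ∫ t in a..b, indicator {x | x ≤ f p} θ t)
          * ind w f p
        = ∑ p ∈ crit, ((∫ t in a..f q, θ t) - ∫ t in a..f q, indicator {x | x ≤ f p} θ t)
          * ind w f p + ∑ p ∈ crit, ((∫ t in f q..b, θ t)
          - ∫ t in f q..b, indicator {x | x ≤ f p} θ t) * ind w f p := by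
      rw [← Finset.sum_add_distrib]
      refine Finset.sum_congr rfl fun p _ => ?_
      rw [← intervalIntegral.integral_add_adjacent_intervals (ii_ind hθ _ a (f q))
        (ii_ind hθ _ (f q) b), ← intervalIntegral.integral_add_adjacent_intervals
        (hθ.intervalIntegrable a (f q)) (hθ.intervalIntegrable (f q) b)]
      ring
    rw [k5, ← intervalIntegral.integral_add_adjacent_intervals (hθ.intervalIntegrable a (f q))
      (hθ.intervalIntegrable (f q) b)]
    linarith

theorem lgbG_of (hC : Calc) (h0 : L0B) (h1 : L1B) (h2 : L2G) (h3 : L3B) : LGBG := by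
  intro B A
  obtain ⟨C₁, hC₁, k1⟩ := h1
  obtain ⟨c, hc, k3⟩ := h3
  obtain ⟨L, hL, hLb⟩ := exists_cut
  obtain ⟨C₂, hC₂⟩ : ∃ C, C = 2 * (4 * Real.pi * c⁻¹ + C₁) := ⟨_, rfl⟩
  have hC₂0 : 0 ≤ C₂ := by rw [hC₂]; positivity
  obtain ⟨C₃, hC₃⟩ : ∃ C, C = 4 * C₂ * L + 18 * C₂ ^ 2 * L ^ 2 := ⟨_, rfl⟩
  have hC₃0 : 0 ≤ C₃ := by rw [hC₃]; positivity
  refine ⟨2 + 16 * Real.pi * B + 8 * |A| * C₃, fun w hw hA hB z r hr => ?_⟩
  obtain ⟨f, crit, hm, hin, hcl⟩ := h0 w hw z r (min (r ^ 2 / 4) r) hr (by positivity)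
  have hw2 : ContDiff ℝ 2 w := hw.smooth.of_le two_le
  have hf2 : ContDiff ℝ 2 f := hm.smooth.of_le two_le
  have := hC.locFin w hw
  obtain ⟨φ, ζ, φ1, hφ, ζ0, ζ1, θ0, θ1, za, zb⟩ := hLb r hr
  have hab : 3 / 4 * r ^ 2 ≤ 7 / 4 * r ^ 2 := by nlinarith
  have hbT : 7 / 4 * r ^ 2 < 2 * r ^ 2 := by nlinarith
  have θc : Continuous fun s => -deriv φ s := (φ1.continuous_deriv le_rfl).neg
  have φa : ∀ s ≤ 3 / 4 * r ^ 2, φ s = 1 := fun s h => by simp only [hφ, za s h, one_pow]
  have φb : ∀ s, 7 / 4 * r ^ 2 ≤ s → φ s = 0 := fun s h => by simp [hφ, zb s h]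
  have θb : ∀ s, 7 / 4 * r ^ 2 ≤ s → -deriv φ s = 0 := fun s h => by
    have b1 := θ1 s
    rw [zb s h, mul_zero, zero_mul] at b1
    exact le_antisymm b1 (θ0 _)
  have cθ : Continuous fun x => -deriv φ (f x) * GG w f x :=
    (θc.comp hf2.continuous).mul (continuous_GG hw2 hf2)
  have cφ : Continuous fun x => φ (f x) := φ1.continuous.comp hf2.continuous
  have iθ := int_cut hC hw hm.cpt cθ fun x hx => by rw [θb _ (hbT.trans hx).le, zero_mul]
  have iA := int_cut hC hw hm.cpt (g := fun x => φ (f x) * hessSq w x)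
    (cφ.mul (continuous_hessSq hw2)) fun x hx => by rw [φb _ (hbT.trans hx).le, zero_mul]
  have iH := int_cut hC hw hm.cpt (g := fun x => φ (f x) * lap w x ^ 2)
    (cφ.mul ((continuous_lap hw2).pow 2)) fun x hx => by rw [φb _ (hbT.trans hx).le, zero_mul]
  have iL := io_sub hC hw (isCompact_closedBall z (2 * r)) ball_subset_closedBall
    (g := fun x => lap w x ^ 2) ((continuous_lap hw2).pow 2)
  have s1 := count_ge hC h2 hc hw hB hm θc θ0 (fun t₁ t₂ h hT h' V hV =>
    k3 w hw f hm.smooth t₁ t₂ h (hm.cpt.of_isClosed_subset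
      ((isClosed_zero hw).inter (isClosed_le hf2.continuous continuous_const))
      fun x hx => ⟨hx.1, hx.2.trans hT⟩) h' V hV _ θc θ0) _ _ _ hab hbT.le le_rfl
  have s2 : ∫ t in (3 / 4 * r ^ 2)..(7 / 4 * r ^ 2), -deriv φ t = 1 := by
    rw [intervalIntegral.integral_neg, intervalIntegral.integral_deriv_eq_sub
      (fun x _ => φ1.differentiable one_ne_zero x)
      ((φ1.continuous_deriv le_rfl).intervalIntegrable _ _), φa _ le_rfl, φb _ le_rfl]
    ring
  have s3 := setIntegral_le_integral (s := strip w f (3 / 4 * r ^ 2) (7 / 4 * r ^ 2)) iθ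
    (Eventually.of_forall fun x => mul_nonneg (θ0 _) GG_nonneg)
  have s4 : ∑ p ∈ crit, φ (f p) * ind w f p = ∑ p ∈ crit, (1 -
      ∫ t in (3 / 4 * r ^ 2)..(7 / 4 * r ^ 2), indicator {x | x ≤ f p} (fun t => -deriv φ t) t)
        * ind w f p :=
    Finset.sum_congr rfl fun p _ => by rw [layer φ1 hab φa φb (f p)]
  have s5 := k1 w hw f crit _ hm φ φ1 _ hbT φb
  have s6 : ∀ s, |deriv φ s| = -deriv φ s := fun s => abs_of_nonpos (by linarith [θ0 s])
  simp only [s6] at s5
  have s8 : ∫ x, φ (f x) * KK w x ∂(ar w)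
      = (∫ x, φ (f x) * lap w x ^ 2 ∂(ar w) - ∫ x, φ (f x) * hessSq w x ∂(ar w)) / 2 := by
    rw [← integral_sub iH iA, ← integral_div]
    exact integral_congr_ae (Eventually.of_forall fun x => by simp only [KK]; ring)
  have far : ∀ x, w x = 0 → x ∉ ball z (2 * r) → ζ (f x) = 0 := fun x hx h => zb _ (by
    rcases le_or_gt (f x) (2 * r ^ 2) with h' | h'
    · have a1 := (abs_le.1 ((hcl x hx (hin x hx h')).1.trans (min_le_left _ _))).1
      rw [mem_ball, dist_eq_norm, not_lt] at h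
      nlinarith
    · exact (hbT.trans h').le)
  have s9 : ∫ x, φ (f x) * lap w x ^ 2 ∂(ar w) ≤ ∫ x in ball z (2 * r), lap w x ^ 2 ∂(ar w) := by
    rw [← integral_indicator measurableSet_ball]
    refine integral_mono_ae iH ((integrable_indicator_iff measurableSet_ball).2 iL)
      ((ae_zero hw).mono fun x hx => ?_)
    by_cases h : x ∈ ball z (2 * r)
    · simp only [indicator_of_mem h, hφ]
      exact mul_le_of_le_one_left (sq_nonneg _) (pow_le_one₀ (ζ0 _) (ζ1 _))
    · simp [indicator_of_notMem h, hφ, far x hx h]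
  have s10 : ∫ x in ball z r, hessSq w x ∂(ar w) ≤ ∫ x, φ (f x) * hessSq w x ∂(ar w) := by
    rw [← integral_indicator measurableSet_ball]
    refine integral_mono_ae ((integrable_indicator_iff measurableSet_ball).2
      (io_sub hC hw (isCompact_closedBall z r) ball_subset_closedBall (continuous_hessSq hw2)))
      iA ((ae_zero hw).mono fun x hx => ?_)
    by_cases h : x ∈ ball z r
    · have a2 : ‖x - z‖ < r := by rwa [mem_ball, dist_eq_norm] at h
      have a1 := (abs_le.1 ((hcl x hx (by linarith)).1.trans (min_le_left _ _))).2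
      simp only [indicator_of_mem h, φa (f x) (by nlinarith [norm_nonneg (x - z)]), one_mul, le_refl]
    · simp only [indicator_of_notMem h]
      exact mul_nonneg (hφ _ ▸ sq_nonneg _) (hessSq_nonneg (surf2 hw x))
  have s11 : C₂ * ∫ x, -deriv φ (f x) * GG w f x ∂(ar w)
      ≤ (∫ x, φ (f x) * hessSq w x ∂(ar w)) / 2 + 4 * |A| * C₃ := by
    have a0 : (ar w).real (ball z (2 * r)) ≤ |A| * (2 * r) ^ 2 :=
      ENNReal.toReal_le_of_le_ofReal (by positivity) ((measure_mono ball_subset_closedBall).trans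
        ((hA z _ (by positivity)).trans (ENNReal.ofReal_le_ofReal (by gcongr; exact le_abs_self A))))
    have a1 : ∫ x, indicator (ball z (2 * r)) (fun _ => C₃ / r ^ 2) x ∂(ar w) ≤ 4 * |A| * C₃ := by
      rw [integral_indicator_const _ measurableSet_ball, smul_eq_mul]
      refine (mul_le_mul_of_nonneg_right a0 (by positivity)).trans (le_of_eq ?_)
      field_simp
      ring
    have a2 : Integrable (indicator (ball z (2 * r)) fun _ => C₃ / r ^ 2) (ar w) :=
      (integrable_indicator_iff measurableSet_ball).2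
        (integrableOn_const measure_ball_lt_top.ne)
    refine le_trans ?_ (add_le_add le_rfl a1)
    rw [← integral_const_mul, ← integral_div, ← integral_add (iA.div_const 2) a2]
    refine integral_mono_ae (iθ.const_mul _) ((iA.div_const 2).add a2)
      ((ae_zero hw).mono fun x hx => ?_)
    have b1 := θ1 (f x)
    have b2 := normSq_hs_le (surf2 hw x)
    by_cases h : x ∈ ball z (2 * r)
    · have b0 : ‖x - z‖ < 2 * r := by rwa [mem_ball, dist_eq_norm] at h
      have b5 := hcl x hx (by linarith)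
      have b3 : ‖gradient f x‖ ≤ 3 * r := by
        have := b5.2.1
        linarith [min_le_right (r ^ 2 / 4) r]
      have b4 : GG w f x ≤ 2 + 3 * r * ‖hs w x‖ :=
        add_le_add b5.2.2 (mul_le_mul_of_nonneg_right b3 (norm_nonneg _))
      simp only [indicator_of_mem h, hφ]
      rw [hC₃]
      exact absorb hC₂0 hL hr (ζ0 _) (ζ1 _) GG_nonneg b1 b4 b2
    · rw [far x hx h, mul_zero, zero_mul] at b1
      simp [indicator_of_notMem h, le_antisymm b1 (θ0 _), far x hx h, hφ]
  have t2 := mul_le_mul_of_nonneg_left s3 (inv_pos.2 hc).le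
  have t3 : -(2 * B) - 2 * (c⁻¹ * ∫ x, -deriv φ (f x) * GG w f x ∂(ar w))
      ≤ ∑ p ∈ crit, φ (f p) * ind w f p := by
    rw [s2, ← s4] at s1
    linarith
  have t4 := mul_le_mul_of_nonneg_left t3 Real.two_pi_pos.le
  have t5 := (abs_le.1 s5).1
  have t6 : 0 ≤ ∫ x in ball z (2 * r), lap w x ^ 2 ∂(ar w) := integral_nonneg fun x => sq_nonneg _
  have t7 : ∫ x, φ (f x) * hessSq w x ∂(ar w) ≤ 2 * ∫ x in ball z (2 * r), lap w x ^ 2 ∂(ar w)
      + 16 * Real.pi * B + 8 * |A| * C₃ := by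
    rw [hC₂] at s11
    linarith
  have t8 : 0 ≤ 16 * Real.pi * B + 8 * |A| * C₃ := by positivity
  nlinarith [mul_nonneg t8 t6]

end Vale.Agent.P218VG
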